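import Vale.Agent.P042.R2.H600.Params

/-!
P042: the choice of the parameters.
-/

set_option autoImplicit false

namespace Vale.Agent.P042.R2.H600

open Finset ArithmeticFunction Vale.Agent.P013.J Vale.Agent.P013.J.BV

open Vale.Agent.P005.BV (hi)

theorem split7 {c1 c2 c3 c4 c5 c6 c7 S W : ℕ}
    (h : (c1 + c2 + c3 + c4 + c5 + c6 + c7) * (S + 1) ≤ W) :
    c1 * (S + 1) ≤ W ∧ c2 * (S + 1) ≤ W ∧ c3 * (S + 1) ≤ W ∧ c4 * (S + 1) ≤ W ∧
      c5 * (S + 1) ≤ W ∧ c6 * (S + 1) ≤ W ∧ c7 * (S + 1) ≤ W :=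
  ⟨(Nat.mul_le_mul_right _ (by omega)).trans h, (Nat.mul_le_mul_right _ (by omega)).trans h,
    (Nat.mul_le_mul_right _ (by omega)).trans h, (Nat.mul_le_mul_right _ (by omega)).trans h,
    (Nat.mul_le_mul_right _ (by omega)).trans h, (Nat.mul_le_mul_right _ (by omega)).trans h,
    (Nat.mul_le_mul_right _ (by omega)).trans h⟩

theorem drop1 {c S W : ℕ} (h : c * (S + 1) ≤ W) : c ≤ W :=
  (Nat.le_mul_of_pos_right c (Nat.succ_pos S)).trans h

theorem drop2 {c S W : ℕ} (h : c * (S + 1) ≤ W) : c * S ≤ W :=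
  (Nat.mul_le_mul_left c (Nat.le_succ S)).trans h

/-- the constant -/
def CC (a M0 : ℕ) : ℕ :=
  524288 * (2 ^ (11 * a + 1) * (11 * a + 1).factorial) + (14400 * a + 3600) +
      1000 * (2 * a + 1) + 400 * (2 * a + 1) * (11 * a + 1) + 32768 + 10000 + M0 ^ 2

theorem nat_facts0 (c1 c2 c3 c4 c5 c6 c7 s W : ℕ) (hWs : 2 ^ s ≤ W)
    (h : (c1 + c2 + c3 + c4 + c5 + c6 + c7) * (s + 1) ≤ 2 ^ s) :
    c1 ≤ 2 ^ s ∧ c2 * (s + 1) ≤ W ∧ c3 * s ≤ W ∧ c4 * s ≤ W ∧ c5 ≤ W ∧ c6 ≤ 2 ^ s ∧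
      c7 ≤ 2 ^ s := by
  obtain ⟨h1, h2, h3, h4, h5, h6, h7⟩ := split7 h
  exact ⟨drop1 h1, h2.trans hWs, (drop2 h3).trans hWs, (drop2 h4).trans hWs,
    (drop1 h5).trans hWs, drop1 h6, drop1 h7⟩

/-- the conditions on `s`, all in natural numbers -/
theorem nat_facts (a M0 s W : ℕ) (ha : 1 ≤ a) (hW : W = 2 ^ (4 * a * s))
    (hC : CC a M0 * (s + 1) ≤ 2 ^ s) :
    524288 * (2 ^ (11 * a + 1) * (11 * a + 1).factorial) ≤ 2 ^ s ∧
    14400 * (a * s) + 3600 ≤ W ∧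
    1000 * (2 * a + 1) * s ≤ W ∧
    400 * (2 * a + 1) * (11 * a + 1) * s ≤ W ∧
    32768 ≤ W ∧ 10000 ≤ 2 ^ s ∧ M0 ^ 2 ≤ 2 ^ s := by
  have hWs : 2 ^ s ≤ W := by
    rw [hW]
    refine Nat.pow_le_pow_right (by norm_num) ?_
    calc s = 1 * s := (one_mul s).symm
      _ ≤ 4 * a * s := Nat.mul_le_mul_right _ (by omega)
  unfold CC at hC
  obtain ⟨h1, h2, h3, h4, h5, h6, h7⟩ := nat_facts0 _ _ _ _ _ _ _ s W hWs hC
  refine And.intro h1 (And.intro ?_ (And.intro h3 (And.intro h4 (And.intro h5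
    (And.intro h6 h7)))))
  refine le_trans ?_ h2
  have : (14400 * a + 3600) * (s + 1) = 14400 * (a * s) + 3600 + (14400 * a + 3600 * s) := by
    ring
  rw [this]
  exact Nat.le_add_right _ _

theorem sw_thm : SW := Vale.Agent.P013.J.sw

/-- the parameters in natural numbers -/
structure Par (a s W z r n : ℕ) : Prop where
  ha : 1 ≤ a
  hs : 1 ≤ s
  hW : W = 2 ^ (4 * a * s)
  hz : z = 2 ^ ((8 * a + 4) * s)
  hr : r = W / (400 * (2 * a + 1) * s)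
  hn : n = (Qs z).card
  hQs : z ^ (8 * a + 3) ≤ n ^ (8 * a + 3 + 1)
  f1 : 524288 * (2 ^ (11 * a + 1) * (11 * a + 1).factorial) ≤ 2 ^ s
  f2 : 14400 * (a * s) + 3600 ≤ W
  f3 : 1000 * (2 * a + 1) * s ≤ W
  f4 : 400 * (2 * a + 1) * (11 * a + 1) * s ≤ W
  f5 : 32768 ≤ W

namespace Par

variable {a s W z r n : ℕ}

theorem hBpos (h : Par a s W z r n) : 0 < 400 * (2 * a + 1) * s := by
  have := h.hs
  exact Nat.mul_pos (by omega) (by omega)

theorem hrB (h : Par a s W z r n) : r * (400 * (2 * a + 1) * s) ≤ W := by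
  rw [h.hr]; exact Nat.div_mul_le_self _ _

theorem hrB2 (h : Par a s W z r n) : W < (400 * (2 * a + 1) * s) * (r + 1) := by
  rw [h.hr]; exact Nat.lt_mul_div_succ W h.hBpos

theorem hrj (h : Par a s W z r n) : 11 * a + 1 ≤ r := by
  rw [h.hr, Nat.le_div_iff_mul_le h.hBpos]
  calc (11 * a + 1) * (400 * (2 * a + 1) * s) = 400 * (2 * a + 1) * (11 * a + 1) * s := by ring
    _ ≤ W := h.f4

theorem hrW (h : Par a s W z r n) : r ≤ W := by
  rw [h.hr]; exact Nat.div_le_self _ _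

theorem hn0 (h : Par a s W z r n) : 2 ^ ((8 * a + 3) * s) ≤ n := by
  have h1 : (2 ^ ((8 * a + 3) * s)) ^ (8 * a + 3 + 1) ≤ n ^ (8 * a + 3 + 1) := by
    refine le_trans (le_of_eq ?_) h.hQs
    rw [h.hz, ← pow_mul, ← pow_mul]
    congr 1
    ring
  exact (Nat.pow_le_pow_iff_left (by omega)).1 h1

theorem hn0' (h : Par a s W z r n) : 2 ^ ((8 * a + 3) * s) = W ^ 2 * 2 ^ (3 * s) := by
  rw [h.hW, ← pow_mul, ← pow_add]
  congr 1
  ring

theorem hWn (h : Par a s W z r n) : 2 * W ^ 2 ≤ n := by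
  have hs := h.hs
  have h2s : 2 ≤ 2 ^ (3 * s) := by
    calc 2 = 2 ^ 1 := rfl
      _ ≤ 2 ^ (3 * s) := Nat.pow_le_pow_right (by norm_num) (by omega)
  refine le_trans ?_ h.hn0
  rw [h.hn0', mul_comm]
  exact Nat.mul_le_mul_left _ h2s

theorem hWn1 (h : Par a s W z r n) : W ≤ n := by
  have h1 := h.hWn
  have hWW : W ≤ W ^ 2 := Nat.le_self_pow (by norm_num) W
  omega

theorem hDcard (h : Par a s W z r n) : W ^ r ≤ (DD z r).card := by
  refine card_DD_ge z r W ?_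
  have h1 := h.hWn
  have hWW : W ≤ W ^ 2 := Nat.le_self_pow (by norm_num) W
  rw [← h.hn]
  calc (W + 1) * r ≤ (W + 1) * W := Nat.mul_le_mul_left _ h.hrW
    _ = W ^ 2 + W := by ring
    _ ≤ n := by omega

theorem hz1 (h : Par a s W z r n) : 1 ≤ z := by
  rw [h.hz]; exact Nat.one_le_two_pow

theorem h2j (h : Par a s W z r n) : 2 * (11 * a + 1) ≤ n := by
  have h1 := h.f4
  have hs := h.hs
  have h2 : 2 * (11 * a + 1) ≤ 400 * (2 * a + 1) * (11 * a + 1) * s := by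
    calc 2 * (11 * a + 1) = 2 * (11 * a + 1) * 1 := (mul_one _).symm
      _ ≤ 400 * (2 * a + 1) * (11 * a + 1) * s :=
          Nat.mul_le_mul (Nat.mul_le_mul_right _ (by omega)) hs
  exact h2.trans (h1.trans h.hWn1)

theorem hbad (h : Par a s W z r n) :
    524288 * W ^ 8 * bad (DD z r) (z ^ (11 * a)) ≤ (DD z r).card ^ 2 := by
  have h1 := bad_le z r (11 * a) h.hz1 h.hrj (by rw [← h.hn]; exact h.h2j)
    (by rw [← h.hn]; exact h.hrW.trans h.hWn1)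
  rw [← h.hn] at h1
  have f1 := h.f1
  have hW1 : 1 ≤ W := by have := h.f5; omega
  generalize hj : 11 * a + 1 = j at h1 f1
  generalize hF : 2 ^ j * j.factorial = F at h1 f1
  generalize bad (DD z r) (z ^ (11 * a)) = bd at h1 ⊢
  generalize (DD z r).card ^ 2 = D2 at h1 ⊢
  have h2 : W ^ 8 * 2 ^ s ≤ 2 ^ (3 * s * j) := by
    rw [h.hW, ← pow_mul, ← pow_add]
    refine Nat.pow_le_pow_right (by norm_num) ?_
    have : 3 * s * j = 4 * a * s * 8 + s + (a * s + 2 * s) := by rw [← hj]; ring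
    omega
  have h3 : bd * (W ^ (2 * j) * (W ^ 8 * 2 ^ s)) ≤ F * W ^ (2 * j) * D2 := by
    calc bd * (W ^ (2 * j) * (W ^ 8 * 2 ^ s)) ≤ bd * (W ^ (2 * j) * 2 ^ (3 * s * j)) :=
          Nat.mul_le_mul_left _ (Nat.mul_le_mul_left _ h2)
      _ = bd * (2 ^ ((8 * a + 3) * s)) ^ j := by
          rw [h.hn0', mul_pow, pow_mul W 2 j, pow_mul 2 (3 * s) j]
      _ ≤ bd * n ^ j := Nat.mul_le_mul_left _ (Nat.pow_le_pow_left h.hn0 _)
      _ ≤ F * r ^ (2 * j) * D2 := h1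
      _ ≤ F * W ^ (2 * j) * D2 :=
          Nat.mul_le_mul_right _ (Nat.mul_le_mul_left _ (Nat.pow_le_pow_left h.hrW _))
  have hWj : 0 < W ^ (2 * j) := by positivity
  have h4 : W ^ (2 * j) * (bd * (W ^ 8 * 2 ^ s)) ≤ W ^ (2 * j) * (F * D2) := by
    calc W ^ (2 * j) * (bd * (W ^ 8 * 2 ^ s)) = bd * (W ^ (2 * j) * (W ^ 8 * 2 ^ s)) := by ring
      _ ≤ _ := h3
      _ = _ := by ring
  have h5 : bd * (W ^ 8 * 2 ^ s) ≤ F * D2 := Nat.le_of_mul_le_mul_left h4 hWj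
  have hFpos : 0 < F := by
    rw [← hF]; exact Nat.mul_pos (by positivity) (Nat.factorial_pos _)
  refine Nat.le_of_mul_le_mul_left ?_ hFpos
  calc F * (524288 * W ^ 8 * bd) = bd * (W ^ 8 * (524288 * F)) := by ring
    _ ≤ bd * (W ^ 8 * 2 ^ s) := Nat.mul_le_mul_left _ (Nat.mul_le_mul_left _ f1)
    _ ≤ _ := h5

theorem hGW (h : Par a s W z r n) : z ^ (11 * a) = W ^ (22 * a + 11) := by
  rw [h.hz, h.hW, ← pow_mul, ← pow_mul]
  congr 1
  ring

theorem hexpo (h : Par a s W z r n) : 8 * W ^ 2 * 2 ^ (W / 400) < W ^ r := by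
  have h1 : W < 1200 * (a * s * r) + 1200 * (a * s) := by
    have ha := h.ha
    calc W < (400 * (2 * a + 1) * s) * (r + 1) := h.hrB2
      _ ≤ (400 * (3 * a) * s) * (r + 1) :=
          Nat.mul_le_mul_right _ (Nat.mul_le_mul_right _ (Nat.mul_le_mul_left _ (by omega)))
      _ = 1200 * (a * s * r) + 1200 * (a * s) := by ring
  have h2 := h.f2
  have h3 : 3 + 8 * (a * s) + W / 400 < 4 * (a * s * r) := by
    generalize a * s * r = E at h1 ⊢
    generalize a * s = A at h1 h2 ⊢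
    omega
  have e1 : 8 * W ^ 2 * 2 ^ (W / 400) = 2 ^ (3 + 8 * (a * s) + W / 400) := by
    generalize W / 400 = f
    rw [h.hW, ← pow_mul, pow_add, pow_add]
    have : 4 * a * s * 2 = 8 * (a * s) := by ring
    rw [this]
    norm_num
  have e2 : W ^ r = 2 ^ (4 * (a * s * r)) := by
    rw [h.hW, ← pow_mul]
    congr 1
    ring
  rw [e1, e2]
  exact Nat.pow_lt_pow_right (by norm_num) h3

theorem d_ge (h : Par a s W z r n) : ∀ d ∈ DD z r, 2 ^ (W / 800) ≤ d := by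
  intro d hd
  have h1 := DD_ge hd
  have h2 : (2 ^ ((4 * a + 2) * s * r)) ^ 2 ≤ d ^ 2 := by
    refine le_trans (le_of_eq ?_) h1
    rw [h.hz, ← pow_mul, ← pow_mul]
    congr 1
    ring
  have h3 : 2 ^ ((4 * a + 2) * s * r) ≤ d := (Nat.pow_le_pow_iff_left (by norm_num)).1 h2
  refine le_trans (Nat.pow_le_pow_right (by norm_num) ?_) h3
  have h4 : W < 200 * ((4 * a + 2) * s * r) + 200 * ((4 * a + 2) * s) := by
    calc W < (400 * (2 * a + 1) * s) * (r + 1) := h.hrB2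
      _ = 200 * ((4 * a + 2) * s * r) + 200 * ((4 * a + 2) * s) := by ring
  have h5 : 500 * ((4 * a + 2) * s) ≤ W := by
    refine le_trans (le_of_eq ?_) h.f3
    ring
  generalize (4 * a + 2) * s * r = E2 at h4 ⊢
  generalize (4 * a + 2) * s = A2 at h4 h5
  omega

theorem d_le (h : Par a s W z r n) : ∀ d ∈ DD z r, (d : ℝ) ≤ Real.exp ((W : ℝ) / 100) := by
  intro q hq
  have h1 := DD_le hq
  have h3 : (q : ℝ) ≤ (2 : ℝ) ^ ((8 * a + 4) * s * r) := by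
    have h4 : q ≤ 2 ^ ((8 * a + 4) * s * r) := by
      rw [pow_mul, ← h.hz]; exact h1
    exact_mod_cast h4
  have h5 : (2 : ℝ) ≤ Real.exp 1 := by
    have := Real.add_one_le_exp (1 : ℝ)
    linarith
  have h6 : (((8 * a + 4) * s * r : ℕ) : ℝ) ≤ (W : ℝ) / 100 := by
    rw [le_div_iff₀ (by norm_num)]
    have : (8 * a + 4) * s * r * 100 ≤ W := by
      calc (8 * a + 4) * s * r * 100 = r * (400 * (2 * a + 1) * s) := by ring
        _ ≤ W := h.hrB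
    exact_mod_cast this
  calc (q : ℝ) ≤ (2 : ℝ) ^ ((8 * a + 4) * s * r) := h3
    _ ≤ (Real.exp 1) ^ ((8 * a + 4) * s * r) := pow_le_pow_left₀ (by norm_num) h5 _
    _ = Real.exp (((8 * a + 4) * s * r : ℕ) : ℝ) := by
        rw [← Real.exp_nat_mul, mul_one]
    _ ≤ _ := Real.exp_le_exp.2 h6

end Par

/-- the numerical inequalities for `Q ≤ x ^ (1 / 100)`, `U ∼ x ^ (1 / 3)`, `x = e ^ w` -/
theorem nums (w Q U : ℝ) (hw : 32768 ≤ w) (hexp : 655360 * w ^ 7 ≤ Real.exp (w / 4))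
    (hQ0 : 0 ≤ Q) (hQle : Q ≤ Real.exp (w / 100)) (hU1 : 1 ≤ U) (hUle : U ≤ Real.exp (w / 3))
    (hU2 : Real.exp (w / 3) / 2 ≤ U) :
    1280 * w ^ 7 * Q ^ 4 / U ≤ 1 / 256 ∧ 5 * Q ^ 2 * U ^ 2 * (2 * w) ≤ Real.exp w / 64 ∧
    Q * w ≤ Real.exp w / 16 ∧ Q * (2 * √(Real.exp w) * w) ≤ Real.exp w / 4 := by
  have hw0 : 0 < w := by linarith
  have hexp1 : 640 * w ≤ Real.exp (w / 4) := by
    refine le_trans ?_ hexp
    have h1 : (1 : ℝ) ≤ w ^ 6 := one_le_pow₀ (by linarith)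
    have h2 : w ^ 7 = w * w ^ 6 := by ring
    rw [h2]
    nlinarith
  refine ⟨?_, ?_, ?_, ?_⟩
  · rw [div_le_div_iff₀ (by linarith) (by norm_num)]
    have h1 : Q ^ 4 ≤ Real.exp (w / 25) := by
      calc Q ^ 4 ≤ (Real.exp (w / 100)) ^ 4 := pow_le_pow_left₀ hQ0 hQle 4
        _ = Real.exp (w / 25) := by
            rw [← Real.exp_nat_mul]; congr 1; push_cast; ring
    calc 1280 * w ^ 7 * Q ^ 4 * 256 = (655360 * w ^ 7) * Q ^ 4 / 2 := by
          ring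
      _ ≤ Real.exp (w / 4) * Real.exp (w / 25) / 2 := by gcongr
      _ = Real.exp (w / 4 + w / 25) / 2 := by rw [Real.exp_add]
      _ ≤ Real.exp (w / 3) / 2 := by
          apply div_le_div_of_nonneg_right _ (by norm_num)
          exact Real.exp_le_exp.2 (by linarith)
      _ ≤ U := hU2
      _ = 1 * U := (one_mul _).symm
  · rw [le_div_iff₀ (by norm_num)]
    have h1 : Q ^ 2 ≤ Real.exp (w / 50) := by
      calc Q ^ 2 ≤ (Real.exp (w / 100)) ^ 2 := pow_le_pow_left₀ hQ0 hQle 2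
        _ = Real.exp (w / 50) := by
            rw [← Real.exp_nat_mul]; congr 1; push_cast; ring
    have h2 : U ^ 2 ≤ Real.exp (2 * w / 3) := by
      calc U ^ 2 ≤ (Real.exp (w / 3)) ^ 2 := pow_le_pow_left₀ (by linarith) hUle 2
        _ = Real.exp (2 * w / 3) := by
            rw [← Real.exp_nat_mul]; congr 1; push_cast; ring
    calc 5 * Q ^ 2 * U ^ 2 * (2 * w) * 64 = (640 * w) * (Q ^ 2 * U ^ 2) := by ring
      _ ≤ Real.exp (w / 4) * (Real.exp (w / 50) * Real.exp (2 * w / 3)) := by gcongr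
      _ = Real.exp (w / 4 + (w / 50 + 2 * w / 3)) := by rw [Real.exp_add, Real.exp_add]
      _ ≤ Real.exp w := Real.exp_le_exp.2 (by linarith)
  · rw [le_div_iff₀ (by norm_num)]
    calc Q * w * 16 = (16 * w) * Q := by ring
      _ ≤ (640 * w) * Q := by gcongr; norm_num
      _ ≤ Real.exp (w / 4) * Real.exp (w / 100) := by gcongr
      _ = Real.exp (w / 4 + w / 100) := by rw [Real.exp_add]
      _ ≤ Real.exp w := Real.exp_le_exp.2 (by linarith)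
  · rw [le_div_iff₀ (by norm_num), ← Real.exp_half]
    calc Q * (2 * Real.exp (w / 2) * w) * 4 = (8 * w) * Q * Real.exp (w / 2) := by ring
      _ ≤ (640 * w) * Q * Real.exp (w / 2) := by gcongr; norm_num
      _ ≤ Real.exp (w / 4) * Real.exp (w / 100) * Real.exp (w / 2) := by gcongr
      _ = Real.exp (w / 4 + w / 100 + w / 2) := by rw [Real.exp_add, Real.exp_add]
      _ ≤ Real.exp w := Real.exp_le_exp.2 (by linarith)

/-- Siegel-Walfisz for the class `c mod g` at a given `x` -/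
def SWat (C : ℕ) (x : ℝ) : Prop := ∀ g c : ℕ, 1 ≤ g →
  (g : ℝ) ≤ (Real.log x) ^ (C : ℝ) → Nat.Coprime c g → ∀ N : ℕ, N ≤ ⌊x⌋₊ →
    |∑ n ∈ Icc 1 N, hi vonMangoldt ⌊x ^ (1 / 3 : ℝ)⌋₊ n * K g c n| ≤
      (Real.log x) ^ (-(C : ℝ)) * N

theorem real_part {a s W z r n : ℕ} (h : Par a s W z r n)
    (hexp : 655360 * (W : ℝ) ^ 7 ≤ Real.exp ((W : ℝ) / 4))
    (hpsi : |∑ n ∈ Icc 1 ⌊Real.exp (W : ℝ)⌋₊, vonMangoldt n - Real.exp (W : ℝ)| ≤
      Real.exp (W : ℝ) / 16)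
    (hsw : SWat (22 * a + 18) (Real.exp (W : ℝ))) :
    ((DD z r).card : ℝ) * Real.exp (W : ℝ) / (4 * W) ≤
      ∑ d ∈ DD z r, (d : ℝ) * (PS (Real.exp (W : ℝ)) d).card := by
  have hWr1 : (32768 : ℝ) ≤ W := by exact_mod_cast h.f5
  have hW0 : (0 : ℝ) < W := by linarith
  have hW1 : 1 ≤ W := by have := h.f5; omega
  have hGW := h.hGW
  have hbadn := h.hbad
  have hdge := h.d_ge
  have hdle := h.d_le
  have hz1 := h.hz1
  generalize DD z r = D at hbadn hdge hdle ⊢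
  generalize z ^ (11 * a) = G at hGW hbadn
  generalize hx : Real.exp (W : ℝ) = x at hpsi hsw ⊢
  have hx0 : 0 < x := by rw [← hx]; exact Real.exp_pos _
  have hlx : Real.log x = W := by rw [← hx, Real.log_exp]
  have e100 : x ^ (1 / 100 : ℝ) = Real.exp (W / 100) := by
    rw [← hx, ← Real.exp_mul]; congr 1; ring
  have e3 : x ^ (1 / 3 : ℝ) = Real.exp (W / 3) := by
    rw [← hx, ← Real.exp_mul]; congr 1; ring
  unfold SWat at hsw
  rw [hlx] at hsw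
  generalize hX : ⌊x⌋₊ = X at hpsi hsw
  generalize hU : ⌊x ^ (1 / 3 : ℝ)⌋₊ = U at hsw
  obtain ⟨Q, hQ⟩ : ∃ Q : ℕ, Q = ⌊x ^ (1 / 100 : ℝ)⌋₊ := ⟨_, rfl⟩
  have hQle : (Q : ℝ) ≤ Real.exp (W / 100) := by
    rw [← e100, hQ]; exact Nat.floor_le (Real.rpow_nonneg hx0.le _)
  have hUle : (U : ℝ) ≤ Real.exp (W / 3) := by
    rw [← e3, ← hU]; exact Nat.floor_le (Real.rpow_nonneg hx0.le _)
  have hQ1 : 1 ≤ Q := by
    rw [hQ]
    exact Nat.le_floor (by rw [Nat.cast_one, e100]; exact Real.one_le_exp (by positivity))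
  have hU1 : 1 ≤ U := by
    rw [← hU]
    exact Nat.le_floor (by rw [Nat.cast_one, e3]; exact Real.one_le_exp (by positivity))
  have hUr : (1 : ℝ) ≤ U := by exact_mod_cast hU1
  have hU2 : Real.exp (W / 3) / 2 ≤ U := by
    have := (Nat.lt_floor_add_one (x ^ (1 / 3 : ℝ))).le
    rw [hU, e3] at this
    linarith
  have hQU : Q ≤ U := by
    rw [hQ, ← hU]
    apply Nat.floor_le_floor
    rw [e100, e3]
    exact Real.exp_le_exp.2 (by linarith)
  have hUX : U ≤ X := by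
    rw [← hU, ← hX]
    apply Nat.floor_le_floor
    rw [e3, ← hx]
    exact Real.exp_le_exp.2 (by linarith)
  have hD : ∀ q ∈ D, 1 ≤ q ∧ q ≤ Q := by
    intro q hq
    refine ⟨le_trans Nat.one_le_two_pow (hdge q hq), ?_⟩
    rw [hQ]
    refine Nat.le_floor ?_
    rw [e100]
    exact hdle q hq
  have hG1 : 1 ≤ G := by rw [hGW]; exact Nat.one_le_pow _ _ hW1
  obtain ⟨n1, n2, n3, n4⟩ := nums (W : ℝ) Q U hWr1 hexp (by positivity) hQle hUr hUle hU2
  rw [hx] at n2 n3 n4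
  have hδ : (W : ℝ) ^ (-((22 * a + 18 : ℕ) : ℝ)) = 1 / (W : ℝ) ^ (22 * a + 18) := by
    rw [Real.rpow_neg hW0.le, Real.rpow_natCast, one_div]
  rw [hδ, Real.rpow_natCast] at hsw
  refine weighted_lower (W : ℝ) x (by linarith) hx.symm X U Q G hX.symm hU1 hG1 hQ1 hQU hUX D
    hD (1 / (W : ℝ) ^ (22 * a + 18)) (by positivity) ?_ hpsi ?_ n1 ?_ n2 n3 n4
  · intro g hg hgG c hc N hN
    refine hsw g c hg ?_ hc N hN
    have h2 : g ≤ W ^ (22 * a + 18) := by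
      refine hgG.trans ?_
      rw [hGW]
      exact Nat.pow_le_pow_right hW1 (by omega)
    exact_mod_cast h2
  · rw [hGW]
    push_cast
    have h1 : (W : ℝ) ^ (22 * a + 18) = W ^ (22 * a + 11) * W ^ 7 := by
      rw [← pow_add]
    have h2 : 128 * (W : ℝ) ^ 6 * ((W : ℝ) ^ (22 * a + 11) * (1 / (W : ℝ) ^ (22 * a + 18))) =
        128 / W := by
      rw [h1]
      field_simp
    rw [h2, div_le_div_iff₀ hW0 (by norm_num)]
    linarith
  · have h1 : ((524288 * W ^ 8 * bad D G : ℕ) : ℝ) ≤ ((D.card ^ 2 : ℕ) : ℝ) := by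
      exact_mod_cast hbadn
    push_cast at h1
    rw [le_div_iff₀ (by norm_num)]
    calc 2048 * (W : ℝ) ^ 8 * (bad D G : ℝ) * 256 = 524288 * (W : ℝ) ^ 8 * (bad D G : ℝ) := by
          ring
      _ ≤ _ := h1

theorem find_k {a s W z r n : ℕ} (h : Par a s W z r n)
    (hmain : ((DD z r).card : ℝ) * Real.exp (W : ℝ) / (4 * W) ≤
      ∑ d ∈ DD z r, (d : ℝ) * (PS (Real.exp (W : ℝ)) d).card) :
    ∃ k : ℕ, 1 ≤ k ∧ (k : ℝ) ≤ Real.exp (W : ℝ) ∧
      2 ^ (W / 400) ≤ ((DD z r).filter (fun d => (d * k + 1).Prime)).card := by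
  have hWr1 : (32768 : ℝ) ≤ W := by exact_mod_cast h.f5
  refine pigeon2 (Real.exp (W : ℝ)) (Real.one_le_exp (by linarith)) (DD z r)
    (fun d hd => le_trans Nat.one_le_two_pow (h.d_ge d hd)) (2 ^ (W / 400))
    (4 * W) (by positivity) hmain ?_
  rw [Real.log_exp]
  have h3 : 8 * W ^ 2 * 2 ^ (W / 400) < (DD z r).card := lt_of_lt_of_le h.hexpo h.hDcard
  generalize W / 400 = f at h3 ⊢
  generalize (DD z r).card = Dc at h3 ⊢
  have h4 : ((8 * W ^ 2 * 2 ^ f : ℕ) : ℝ) < Dc := by exact_mod_cast h3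
  refine lt_of_le_of_lt ?_ h4
  push_cast
  have h5 : (0 : ℝ) < 2 ^ f := by positivity
  have h6 : 4 * (W : ℝ) * (1 + W) ≤ 8 * W ^ 2 := by nlinarith
  exact mul_le_mul_of_nonneg_right h6 h5.le

theorem core (a M0 : ℕ) (ha : 1 ≤ a) : ∀ᶠ s : ℕ in Filter.atTop, ∃ W z r n : ℕ,
    Par a s W z r n ∧ 10000 ≤ 2 ^ s ∧ M0 ^ 2 ≤ 2 ^ s ∧
    ∃ k : ℕ, 1 ≤ k ∧ (k : ℝ) ≤ Real.exp (W : ℝ) ∧
      2 ^ (W / 400) ≤ ((DD z r).filter (fun d => (d * k + 1).Prime)).card := by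
  obtain ⟨x1, hx1⟩ := Vale.Agent.P013.J.sw 1 one_pos
  obtain ⟨x2, hx2⟩ := sw_hi Vale.Agent.P013.J.sw ((22 * a + 18 : ℕ) : ℝ) (by positivity)
  have hzt : Filter.Tendsto (fun s : ℕ => 2 ^ ((8 * a + 4) * s)) Filter.atTop Filter.atTop := by
    refine Filter.tendsto_atTop_mono (fun s => ?_) Filter.tendsto_id
    calc s ≤ 2 ^ s := Nat.lt_two_pow_self.le
      _ ≤ 2 ^ ((8 * a + 4) * s) := Nat.pow_le_pow_right (by norm_num)
          (Nat.le_mul_of_pos_left _ (by omega))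
  have hWt : Filter.Tendsto (fun s : ℕ => 2 ^ (4 * a * s)) Filter.atTop Filter.atTop := by
    refine Filter.tendsto_atTop_mono (fun s => ?_) Filter.tendsto_id
    calc s ≤ 2 ^ s := Nat.lt_two_pow_self.le
      _ ≤ 2 ^ (4 * a * s) := Nat.pow_le_pow_right (by norm_num)
          (Nat.le_mul_of_pos_left _ (by omega))
  have hWr := (tendsto_natCast_atTop_atTop (R := ℝ)).comp hWt
  filter_upwards [hzt.eventually (ev_Qs_gen sw_thm (8 * a + 3) (by omega)), ev_pow2 (CC a M0),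
    hWr.eventually ev_exp, hWr.eventually (Filter.eventually_ge_atTop (max x1 x2)),
    Filter.eventually_ge_atTop 1] with s hQs hC hexp hmax hs
  simp only [Function.comp] at hexp hmax
  obtain ⟨W, hW⟩ : ∃ W : ℕ, W = 2 ^ (4 * a * s) := ⟨_, rfl⟩
  obtain ⟨z, hz⟩ : ∃ z : ℕ, z = 2 ^ ((8 * a + 4) * s) := ⟨_, rfl⟩
  rw [← hW] at hexp hmax
  rw [← hz] at hQs
  obtain ⟨f1, f2, f3, f4, f5, f6, f7⟩ := nat_facts a M0 s W ha hW hC
  have hpar : Par a s W z (W / (400 * (2 * a + 1) * s)) (Qs z).card :=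
    ⟨ha, hs, hW, hz, rfl, rfl, hQs, f1, f2, f3, f4, f5⟩
  have hWr1 : (32768 : ℝ) ≤ W := by exact_mod_cast f5
  have hexpW : (W : ℝ) ≤ Real.exp (W : ℝ) := by
    have := Real.add_one_le_exp (W : ℝ)
    linarith
  have hxx1 : x1 ≤ Real.exp (W : ℝ) := ((le_max_left _ _).trans hmax).trans hexpW
  have hxx2 : x2 ≤ Real.exp (W : ℝ) := ((le_max_right _ _).trans hmax).trans hexpW
  have hpsi : |∑ n ∈ Icc 1 ⌊Real.exp (W : ℝ)⌋₊, vonMangoldt n - Real.exp (W : ℝ)| ≤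
      Real.exp (W : ℝ) / 16 := by
    have h1 := hx1 _ hxx1 1 1 le_rfl (by
      rw [Real.log_exp, Real.rpow_one, Nat.cast_one]; linarith) (by simp)
    have h2 : psiAP (Real.exp (W : ℝ)) 1 1 = ∑ n ∈ Icc 1 ⌊Real.exp (W : ℝ)⌋₊, vonMangoldt n := by
      unfold psiAP
      rw [Finset.filter_true_of_mem]
      intro n _
      exact Nat.modEq_one
    rw [h2, Nat.totient_one, Nat.cast_one, div_one, Real.log_exp, Real.rpow_one] at h1
    refine h1.trans ?_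
    exact div_le_div_of_nonneg_left (Real.exp_pos _).le (by norm_num) (by linarith)
  exact ⟨W, z, _, _, hpar, f6, f7, find_k hpar (real_part hpar hexp hpsi (hx2 _ hxx2))⟩

end Vale.Agent.P042.R2.H600
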