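import Vale.Agent.P013.Bdl.B6

/-!
P042: the type II estimate for a sparse set `D` of moduli, in the class `1`.
-/

set_option autoImplicit false

namespace Vale.Agent.P042.R2.H600

open Finset ArithmeticFunction Vale.Agent.P013.J.BV

open Vale.Agent.P005.BV (hi hi_apply lo harm_le harm_nonneg harm_dvd mu ze tau_sq_sum
  abs_hi_mu_ze_le hi_mu_ze_zero)

/-- the class `1` -/
def h1 : ℕ → ℕ := fun _ => 1

theorem h1_cop : ∀ q, 1 ≤ q → Nat.Coprime (h1 q) q := fun q _ => Nat.coprime_one_left q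

/-- one pair of moduli -/
theorem pair_le (X U V Q : ℕ) (hX : 1 ≤ X) (hV : 1 ≤ V) {q q' : ℕ} (hq : 1 ≤ q) (hqQ : q ≤ Q)
    (hq' : 1 ≤ q') (hqQ' : q' ≤ Q) (c0 : ℝ) (hc00 : 0 ≤ c0)
    (hin : ∀ n, 1 ≤ n → |∑ n' ∈ Icc 1 X, hi vonMangoldt U n' * (MM h1 q q' n n' * W V X n n')| ≤
      c0 * ∑ n' ∈ Icc 1 X, W V X n n') :
    |∑ n ∈ Icc 1 X, ∑ n' ∈ Icc 1 X, hi vonMangoldt U n * hi vonMangoldt U n' *
          TT V X h1 q q' n n'| ≤
      c0 * (2 * (X : ℝ) ^ 2 * (1 + Real.log X) ^ 2) +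
      (1 + Real.log X) ^ 2 * (8 * (Q : ℝ) ^ 2 * ((X : ℝ) / V * (X * (1 + Real.log X)))) := by
  have hL0 := log_nat_nonneg X
  set P : ℝ := 1 + Real.log X with hP
  have hP1 : 1 ≤ P := by linarith only [hL0]
  -- main part
  have hmain : |∑ n ∈ Icc 1 X, ∑ n' ∈ Icc 1 X, hi vonMangoldt U n * hi vonMangoldt U n' *
      (MM h1 q q' n n' * W V X n n')| ≤ c0 * (2 * (X : ℝ) ^ 2 * P ^ 2) := by
    refine (Finset.abs_sum_le_sum_abs _ _).trans ?_
    calc ∑ n ∈ Icc 1 X, |∑ n' ∈ Icc 1 X, hi vonMangoldt U n * hi vonMangoldt U n' *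
          (MM h1 q q' n n' * W V X n n')|
        ≤ ∑ n ∈ Icc 1 X, Real.log X * (c0 * (2 * (X : ℝ) ^ 2 / n)) := by
          apply Finset.sum_le_sum
          intro n hn
          rw [Finset.mem_Icc] at hn
          have e1 : ∑ n' ∈ Icc 1 X, hi vonMangoldt U n * hi vonMangoldt U n' *
              (MM h1 q q' n n' * W V X n n') = hi vonMangoldt U n *
              ∑ n' ∈ Icc 1 X, hi vonMangoldt U n' * (MM h1 q q' n n' * W V X n n') := by
            rw [Finset.mul_sum]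
            apply Finset.sum_congr rfl
            intro n' _; ring
          rw [e1, abs_mul, abs_of_nonneg (hi_nonneg U n)]
          apply mul_le_mul (hi_le_log hn.1 hn.2) _ (abs_nonneg _) hL0
          refine (hin n hn.1).trans ?_
          exact mul_le_mul_of_nonneg_left (sum_W_le V X n hn.1 hn.2) hc00
      _ = Real.log X * (c0 * (2 * (X : ℝ) ^ 2 * ∑ n ∈ Icc 1 X, 1 / (n : ℝ))) := by
          rw [Finset.mul_sum, Finset.mul_sum, Finset.mul_sum]
          apply Finset.sum_congr rfl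
          intro n _
          ring
      _ ≤ P * (c0 * (2 * (X : ℝ) ^ 2 * P)) := by
          have h7 := harm_le X
          have h8 := harm_nonneg X
          apply mul_le_mul (by linarith only []) _
            (by (clear * - hc00 hX; positivity)) (by linarith only [hL0])
          apply mul_le_mul_of_nonneg_left _ hc00
          exact mul_le_mul_of_nonneg_left h7 (by positivity)
      _ = _ := by ring
  -- error part
  have herr : |∑ n ∈ Icc 1 X, ∑ n' ∈ Icc 1 X, hi vonMangoldt U n * hi vonMangoldt U n' *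
      (TT V X h1 q q' n n' - MM h1 q q' n n' * W V X n n')| ≤
      P ^ 2 * (8 * (Q : ℝ) ^ 2 * ((X : ℝ) / V * (X * P))) := by
    refine (Finset.abs_sum_le_sum_abs _ _).trans ?_
    calc ∑ n ∈ Icc 1 X, |∑ n' ∈ Icc 1 X, hi vonMangoldt U n * hi vonMangoldt U n' *
          (TT V X h1 q q' n n' - MM h1 q q' n n' * W V X n n')|
        ≤ ∑ n ∈ Icc 1 X, ∑ n' ∈ Icc 1 X, P ^ 2 *
          (if V < X / max n n' then 8 * (Q : ℝ) ^ 2 * ((X / max n n' : ℕ) : ℝ) else 0) := by
          apply Finset.sum_le_sum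
          intro n hn
          refine (Finset.abs_sum_le_sum_abs _ _).trans ?_
          apply Finset.sum_le_sum
          intro n' hn'
          rw [Finset.mem_Icc] at hn hn'
          rw [abs_mul, abs_mul, abs_of_nonneg (hi_nonneg U n), abs_of_nonneg (hi_nonneg U n')]
          apply mul_le_mul _ (TT_sub_le V X Q h1 hq hq' hqQ hqQ' n n') (abs_nonneg _)
            (by positivity)
          have h9 := hi_le_log (U := U) hn.1 hn.2
          have h10 := hi_le_log (U := U) hn'.1 hn'.2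
          calc hi vonMangoldt U n * hi vonMangoldt U n' ≤ P * P :=
                mul_le_mul (by linarith only [h9]) (by linarith only [h10]) (hi_nonneg U n')
                  (by linarith only [hL0])
            _ = P ^ 2 := by ring
      _ = P ^ 2 * ∑ n ∈ Icc 1 X, ∑ n' ∈ Icc 1 X,
          (if V < X / max n n' then 8 * (Q : ℝ) ^ 2 * ((X / max n n' : ℕ) : ℝ) else 0) := by
          rw [Finset.mul_sum]
          apply Finset.sum_congr rfl
          intro n _
          rw [Finset.mul_sum]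
      _ ≤ _ := mul_le_mul_of_nonneg_left (sum_err_le X V Q hX hV) (by positivity)
  have hsplit : ∑ n ∈ Icc 1 X, ∑ n' ∈ Icc 1 X, hi vonMangoldt U n * hi vonMangoldt U n' *
        TT V X h1 q q' n n' =
      ∑ n ∈ Icc 1 X, ∑ n' ∈ Icc 1 X, hi vonMangoldt U n * hi vonMangoldt U n' *
      (MM h1 q q' n n' * W V X n n') +
      ∑ n ∈ Icc 1 X, ∑ n' ∈ Icc 1 X, hi vonMangoldt U n * hi vonMangoldt U n' *
      (TT V X h1 q q' n n' - MM h1 q q' n n' * W V X n n') := by
    rw [← Finset.sum_add_distrib]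
    apply Finset.sum_congr rfl
    intro n _
    rw [← Finset.sum_add_distrib]
    apply Finset.sum_congr rfl
    intro n' _
    ring
  rw [hsplit]
  exact (abs_add_le _ _).trans (add_le_add hmain herr)

theorem K_one (c n : ℕ) : K 1 c n = 0 := by
  unfold K
  rw [if_pos (Nat.modEq_one), if_pos (Nat.coprime_one_right n)]
  simp

theorem sw_one (X U : ℕ) : ∀ g, 1 ≤ g → g ≤ 1 → ∀ c, Nat.Coprime c g → ∀ N ≤ X,
    |∑ n ∈ Icc 1 N, hi vonMangoldt U n * K g c n| ≤ (0 : ℝ) * N := by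
  intro g hg hg1 c _ N _
  obtain rfl : g = 1 := by omega
  rw [Finset.sum_eq_zero, abs_zero, zero_mul]
  intro n _
  rw [K_one, mul_zero]

/-- the pair, with the weights `q q'` -/
theorem pair_weight (X U V Q G : ℕ) (hX : 1 ≤ X) (hU : 1 ≤ U) (hV : 1 ≤ V) (hG : 1 ≤ G)
    (hQ : 1 ≤ Q) (hQX : Q ≤ X) {δ : ℝ} (hδ : 0 ≤ δ)
    (hSW : ∀ g, 1 ≤ g → g ≤ G → ∀ c, Nat.Coprime c g → ∀ N ≤ X,
      |∑ n ∈ Icc 1 N, hi vonMangoldt U n * K g c n| ≤ δ * N)
    {q q' : ℕ} (hq : 1 ≤ q) (hqQ : q ≤ Q) (hq' : 1 ≤ q') (hqQ' : q' ≤ Q) :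
    (q : ℝ) * q' * |∑ n ∈ Icc 1 X, ∑ n' ∈ Icc 1 X, hi vonMangoldt U n * hi vonMangoldt U n' *
          TT V X h1 q q' n n'| ≤
      (G * δ + (Q : ℝ) ^ 2 * (1 + Real.log X) / U +
        (if G < Nat.gcd q q' then 4 * (1 + Real.log X) ^ 2 else 0)) *
          (2 * (X : ℝ) ^ 2 * (1 + Real.log X) ^ 2) +
      8 * (Q : ℝ) ^ 4 * (X : ℝ) ^ 2 * (1 + Real.log X) ^ 3 / V := by
  have hL0 := log_nat_nonneg X
  set P : ℝ := 1 + Real.log X with hP
  have hP1 : 1 ≤ P := by linarith only [hL0]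
  have hVr : (0 : ℝ) < V := by exact_mod_cast hV
  have hUr : (0 : ℝ) < U := by exact_mod_cast hU
  have hqr : (0 : ℝ) < q := by exact_mod_cast hq
  have hqr' : (0 : ℝ) < q' := by exact_mod_cast hq'
  have hqQr : (q : ℝ) ≤ Q := by exact_mod_cast hqQ
  have hqQr' : (q' : ℝ) ≤ Q := by exact_mod_cast hqQ'
  set g := Nat.gcd q q' with hg
  have hg1 : 1 ≤ g := Nat.gcd_pos_of_pos_left _ hq
  have hgQ : g ≤ Q := (Nat.le_of_dvd hq (Nat.gcd_dvd_left q q')).trans hqQ
  have hgr : (1 : ℝ) ≤ g := by exact_mod_cast hg1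
  have hgQr : (g : ℝ) ≤ Q := by exact_mod_cast hgQ
  -- the constant
  obtain ⟨β, hβ0, hβ, hin⟩ : ∃ β : ℝ, 0 ≤ β ∧
      (g : ℝ) * β ≤ G * δ + (Q : ℝ) ^ 2 * P / U + (if G < g then 4 * P ^ 2 else 0) ∧
      ∀ n, 1 ≤ n → |∑ n' ∈ Icc 1 X, hi vonMangoldt U n' * (MM h1 q q' n n' * W V X n n')| ≤
        (g : ℝ) / (q * q') * β * ∑ n' ∈ Icc 1 X, W V X n n' := by
    have hterm : (g : ℝ) * (Q * P / U) ≤ (Q : ℝ) ^ 2 * P / U := by
      rw [mul_div_assoc']
      apply div_le_div_of_nonneg_right _ hUr.le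
      calc (g : ℝ) * (Q * P) ≤ Q * (Q * P) := mul_le_mul_of_nonneg_right hgQr (by positivity)
        _ = (Q : ℝ) ^ 2 * P := by ring
    by_cases hgG : g ≤ G
    · refine ⟨bet X U Q G δ g, bet_nonneg X U Q G hδ g, ?_, fun n hn =>
        inner_le X U V Q G hU hQ hδ hSW h1_cop hq hq' hqQ' hn⟩
      unfold bet
      rw [if_pos hgG, if_neg (by omega), add_zero, add_zero, mul_add]
      refine add_le_add ?_ hterm
      exact mul_le_mul_of_nonneg_right (by exact_mod_cast hgG) hδ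
    · refine ⟨bet X U Q 1 0 g, bet_nonneg X U Q 1 le_rfl g, ?_, fun n hn =>
        inner_le X U V Q 1 hU hQ le_rfl (sw_one X U) h1_cop hq hq' hqQ' hn⟩
      unfold bet
      rw [if_neg (by omega), if_pos (by omega), zero_add, mul_add]
      have h2 : (g : ℝ) * (2 * (1 + Real.log X) / (Nat.totient g : ℝ)) ≤ 4 * P ^ 2 := by
        have h3 := ratio_le hg1 (hgQ.trans hQX)
        rw [← hP] at h3 ⊢
        calc (g : ℝ) * (2 * P / (Nat.totient g : ℝ)) = 2 * P * ((g : ℝ) / Nat.totient g) := by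
              ring
          _ ≤ 2 * P * (2 * P) := mul_le_mul_of_nonneg_left h3 (by positivity)
          _ = 4 * P ^ 2 := by ring
      have h4 : 0 ≤ (G : ℝ) * δ := by positivity
      linarith only [h2, h4, hterm]
  have hc00 : 0 ≤ (g : ℝ) / (q * q') * β := by positivity
  have h5 := pair_le X U V Q hX hV hq hqQ hq' hqQ' _ hc00 hin
  rw [← hP] at h5
  calc (q : ℝ) * q' * |_| ≤ (q : ℝ) * q' * ((g : ℝ) / (q * q') * β * (2 * (X : ℝ) ^ 2 * P ^ 2) +
        P ^ 2 * (8 * (Q : ℝ) ^ 2 * ((X : ℝ) / V * (X * P)))) :=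
        mul_le_mul_of_nonneg_left h5 (by positivity)
    _ = (g * β) * (2 * (X : ℝ) ^ 2 * P ^ 2) +
        ((q : ℝ) * q') * (P ^ 2 * (8 * (Q : ℝ) ^ 2 * ((X : ℝ) / V * (X * P)))) := by
        field_simp
    _ ≤ (G * δ + (Q : ℝ) ^ 2 * P / U + (if G < g then 4 * P ^ 2 else 0)) *
          (2 * (X : ℝ) ^ 2 * P ^ 2) +
        ((Q : ℝ) * Q) * (P ^ 2 * (8 * (Q : ℝ) ^ 2 * ((X : ℝ) / V * (X * P)))) := by
        apply add_le_add
        · exact mul_le_mul_of_nonneg_right hβ (by positivity)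
        · apply mul_le_mul_of_nonneg_right _ (by positivity)
          exact mul_le_mul hqQr hqQr' hqr'.le (by positivity)
    _ = _ := by ring

/-- the number of pairs with large gcd -/
def bad (D : Finset ℕ) (G : ℕ) : ℕ :=
  ((D ×ˢ D).filter (fun i => G < Nat.gcd i.1 i.2)).card

/-- **Type II estimate**, sparse moduli -/
theorem typeII_sparse (X U V Q G : ℕ) (hX : 1 ≤ X) (hU : 1 ≤ U) (hV : 1 ≤ V) (hG : 1 ≤ G)
    (hQ : 1 ≤ Q) (hQU : Q ≤ U) (hUX : U ≤ X) (D : Finset ℕ) (hD : ∀ q ∈ D, 1 ≤ q ∧ q ≤ Q)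
    (δ : ℝ) (hδ : 0 ≤ δ)
    (hSW : ∀ g, 1 ≤ g → g ≤ G → ∀ c, Nat.Coprime c g → ∀ N ≤ X,
      |∑ n ∈ Icc 1 N, hi vonMangoldt U n * K g c n| ≤ δ * N) :
    (∑ q ∈ D, (q : ℝ) * |∑ n ∈ Icc 1 X, ∑ m ∈ Icc 1 (X / n),
      hi vonMangoldt U n * (hi mu V * ze) m * K q (h1 q) (n * m)|) ^ 2 ≤
      (1 + Real.log X) ^ 4 * (((D.card : ℝ) ^ 2 * (G * δ + (Q : ℝ) ^ 2 * (1 + Real.log X) / U) +
        4 * (1 + Real.log X) ^ 2 * bad D G) * (2 * (X : ℝ) ^ 2 * (1 + Real.log X) ^ 2) +
      (D.card : ℝ) ^ 2 * (8 * (Q : ℝ) ^ 4 * (X : ℝ) ^ 2 * (1 + Real.log X) ^ 3 / V)) := by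
  classical
  have hL0 := log_nat_nonneg X
  set E : ℕ → ℝ := fun q => ∑ n ∈ Icc 1 X, ∑ m ∈ Icc 1 (X / n),
      hi vonMangoldt U n * (hi mu V * ze) m * K q (h1 q) (n * m) with hE
  set ε : ℕ → ℝ := fun q => if q ∈ D then (q : ℝ) * (SignType.sign (E q) : ℝ) else 0 with hεdef
  have hDQ : ∑ q ∈ D, (q : ℝ) * |E q| = ∑ q ∈ Icc 1 Q, ε q * E q := by
    have hsub : D ⊆ Icc 1 Q := fun q hq => Finset.mem_Icc.2 (hD q hq)
    rw [← Finset.sum_subset hsub]
    · apply Finset.sum_congr rfl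
      intro q hq
      have : |E q| = (SignType.sign (E q) : ℝ) * E q := by
        rw [mul_comm]
        exact (self_mul_sign _).symm
      simp only [hεdef]
      rw [if_pos hq, this]
      ring
    · intro q _ hq
      simp only [hεdef]
      rw [if_neg hq, zero_mul]
  have h1' : ∑ q ∈ Icc 1 Q, ε q * E q = ∑ m ∈ Ioc V X, (hi mu V * ze) m * SS X U Q h1 ε m := by
    have e1 : ∀ q, E q = ∑ m ∈ Icc 1 X, ∑ n ∈ Icc 1 (X / m),
        hi vonMangoldt U n * (hi mu V * ze) m * K q (h1 q) (m * n) := by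
      intro q
      simp only [hE]
      rw [Finset.sum_comm' (s' := fun m => Icc 1 (X / m)) (t' := Icc 1 X)]
      · apply Finset.sum_congr rfl
        intro m _
        apply Finset.sum_congr rfl
        intro n _
        rw [mul_comm n m]
      · intro n m
        rw [Finset.mem_Icc, Finset.mem_Icc, Finset.mem_Icc, Finset.mem_Icc]
        constructor
        · rintro ⟨⟨h1, h2⟩, h3, h4⟩
          rw [Nat.le_div_iff_mul_le (by omega)] at h4
          refine ⟨⟨h1, ?_⟩, h3, ?_⟩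
          · rw [Nat.le_div_iff_mul_le (by omega), mul_comm]; exact h4
          · calc m = m * 1 := (mul_one m).symm
              _ ≤ m * n := Nat.mul_le_mul_left m h1
              _ ≤ X := h4
        · rintro ⟨⟨h1, h2⟩, h3, h4⟩
          rw [Nat.le_div_iff_mul_le (by omega)] at h2
          refine ⟨⟨h1, ?_⟩, h3, ?_⟩
          · calc n = n * 1 := (mul_one n).symm
              _ ≤ n * m := Nat.mul_le_mul_left n h3
              _ ≤ X := h2
          · rw [Nat.le_div_iff_mul_le (by omega), mul_comm]; exact h2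
    calc ∑ q ∈ Icc 1 Q, ε q * E q = ∑ q ∈ Icc 1 Q, ∑ m ∈ Icc 1 X, ∑ n ∈ Icc 1 (X / m),
          ε q * (hi vonMangoldt U n * (hi mu V * ze) m * K q (h1 q) (m * n)) := by
          apply Finset.sum_congr rfl
          intro q _
          rw [e1 q, Finset.mul_sum]
          apply Finset.sum_congr rfl
          intro m _
          rw [Finset.mul_sum]
      _ = ∑ m ∈ Icc 1 X, (hi mu V * ze) m * SS X U Q h1 ε m := by
          rw [Finset.sum_comm]
          apply Finset.sum_congr rfl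
          intro m _
          unfold SS
          rw [Finset.sum_comm, Finset.mul_sum]
          apply Finset.sum_congr rfl
          intro n _
          rw [Finset.mul_sum, Finset.mul_sum]
          apply Finset.sum_congr rfl
          intro q _
          ring
      _ = _ := by
          symm
          apply Finset.sum_subset
          · intro m hm
            rw [Finset.mem_Ioc] at hm
            rw [Finset.mem_Icc]
            omega
          · intro m hm hm2
            rw [Finset.mem_Icc] at hm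
            rw [Finset.mem_Ioc] at hm2
            rw [hi_mu_ze_zero V m (by omega), zero_mul]
  have h2 : (∑ m ∈ Ioc V X, (hi mu V * ze) m * SS X U Q h1 ε m) ^ 2 ≤
      (∑ m ∈ Ioc V X, (hi mu V * ze) m ^ 2 / m) *
        ∑ m ∈ Ioc V X, (m : ℝ) * SS X U Q h1 ε m ^ 2 := by
    apply Finset.sum_sq_le_sum_mul_sum_of_sq_le_mul
    · intro m _; (clear * -; positivity)
    · intro m _; positivity
    · intro m hm
      rw [Finset.mem_Ioc] at hm
      have hmr : (0 : ℝ) < m := by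
        have : 0 < m := by omega
        exact_mod_cast this
      apply le_of_eq
      field_simp
  have h3 : ∑ m ∈ Ioc V X, (hi mu V * ze) m ^ 2 / m ≤ (1 + Real.log X) ^ 4 := by
    calc ∑ m ∈ Ioc V X, (hi mu V * ze) m ^ 2 / m
        ≤ ∑ m ∈ Ioc V X, Vale.Agent.P005.BV.tau m ^ 2 / m := by
          apply Finset.sum_le_sum
          intro m _
          apply div_le_div_of_nonneg_right _ (by positivity)
          exact sq_le_sq' (by
            have := abs_le.1 (abs_hi_mu_ze_le V m)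
            linarith only [this.1, this]) (abs_le.1 (abs_hi_mu_ze_le V m)).2
      _ ≤ ∑ m ∈ Icc 1 X, Vale.Agent.P005.BV.tau m ^ 2 / m := by
          apply Finset.sum_le_sum_of_subset_of_nonneg
          · intro m hm
            rw [Finset.mem_Ioc] at hm
            rw [Finset.mem_Icc]
            omega
          · intro m _ _; (clear * -; positivity)
      _ ≤ _ := tau_sq_harm X hX
  set P : ℝ := 1 + Real.log X with hP
  have hP1 : 1 ≤ P := by linarith only [hL0]
  -- the second factor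
  have h4 : ∑ m ∈ Ioc V X, (m : ℝ) * SS X U Q h1 ε m ^ 2 ≤
      (((D.card : ℝ) ^ 2 * (G * δ + (Q : ℝ) ^ 2 * P / U) +
        4 * P ^ 2 * bad D G) * (2 * (X : ℝ) ^ 2 * P ^ 2) +
      (D.card : ℝ) ^ 2 * (8 * (Q : ℝ) ^ 4 * (X : ℝ) ^ 2 * P ^ 3 / V)) := by
    rw [sum_sq_eq]
    have hsub : D ⊆ Icc 1 Q := fun q hq => Finset.mem_Icc.2 (hD q hq)
    have e1 : ∑ q ∈ Icc 1 Q, ∑ q' ∈ Icc 1 Q, ε q * ε q' *
        ∑ n ∈ Icc 1 X, ∑ n' ∈ Icc 1 X, hi vonMangoldt U n * hi vonMangoldt U n' *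
          TT V X h1 q q' n n' = ∑ q ∈ D, ∑ q' ∈ D, ε q * ε q' *
        ∑ n ∈ Icc 1 X, ∑ n' ∈ Icc 1 X, hi vonMangoldt U n * hi vonMangoldt U n' *
          TT V X h1 q q' n n' := by
      rw [← Finset.sum_subset hsub]
      · apply Finset.sum_congr rfl
        intro q _
        rw [← Finset.sum_subset hsub]
        intro q' _ hq'
        have : ε q' = 0 := by simp only [hεdef]; rw [if_neg hq']
        rw [this, mul_zero, zero_mul]
      · intro q _ hq
        have : ε q = 0 := by simp only [hεdef]; rw [if_neg hq]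
        apply Finset.sum_eq_zero
        intro q' _
        rw [this, zero_mul, zero_mul]
    rw [e1]
    have hεle : ∀ q ∈ D, |ε q| ≤ q := by
      intro q hq
      simp only [hεdef]
      rw [if_pos hq, abs_mul, abs_of_nonneg (by positivity : (0 : ℝ) ≤ q)]
      have : |(SignType.sign (E q) : ℝ)| ≤ 1 := by
        rcases SignType.trichotomy (SignType.sign (E q)) with h | h | h <;> rw [h] <;> simp
      calc (q : ℝ) * _ ≤ q * 1 := mul_le_mul_of_nonneg_left this (by positivity)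
        _ = q := mul_one _
    have hb : ∀ q ∈ D, ∀ q' ∈ D, ε q * ε q' *
        ∑ n ∈ Icc 1 X, ∑ n' ∈ Icc 1 X, hi vonMangoldt U n * hi vonMangoldt U n' *
          TT V X h1 q q' n n' ≤
        (G * δ + (Q : ℝ) ^ 2 * P / U) * (2 * (X : ℝ) ^ 2 * P ^ 2) +
        (if G < Nat.gcd q q' then 1 else 0) * (4 * P ^ 2 * (2 * (X : ℝ) ^ 2 * P ^ 2)) +
        8 * (Q : ℝ) ^ 4 * (X : ℝ) ^ 2 * P ^ 3 / V := by
      intro q hq q' hq'
      refine (le_abs_self _).trans ?_
      rw [abs_mul, abs_mul]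
      have h5 := pair_weight X U V Q G hX hU hV hG hQ (hQU.trans hUX) hδ hSW (hD q hq).1
        (hD q hq).2 (hD q' hq').1 (hD q' hq').2
      rw [← hP] at h5
      have h6 : |ε q| * |ε q'| ≤ (q : ℝ) * q' :=
        mul_le_mul (hεle q hq) (hεle q' hq') (abs_nonneg _) (by positivity)
      refine (mul_le_mul_of_nonneg_right h6 (abs_nonneg _)).trans (h5.trans (le_of_eq ?_))
      split_ifs <;> ring
    refine (Finset.sum_le_sum fun q hq => Finset.sum_le_sum fun q' hq' => hb q hq q' hq').trans ?_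
    apply le_of_eq
    rw [← Finset.sum_product' (f := fun q q' => (G * δ + (Q : ℝ) ^ 2 * P / U) *
        (2 * (X : ℝ) ^ 2 * P ^ 2) +
        (if G < Nat.gcd q q' then 1 else 0) * (4 * P ^ 2 * (2 * (X : ℝ) ^ 2 * P ^ 2)) +
        8 * (Q : ℝ) ^ 4 * (X : ℝ) ^ 2 * P ^ 3 / V)]
    rw [Finset.sum_add_distrib, Finset.sum_add_distrib, Finset.sum_const, Finset.sum_const,
      ← Finset.sum_mul, ← Finset.sum_filter, Finset.sum_const, Finset.card_product]
    simp only [nsmul_eq_mul, bad]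
    push_cast
    ring
  have h5 : 0 ≤ ∑ m ∈ Ioc V X, (m : ℝ) * SS X U Q h1 ε m ^ 2 :=
    Finset.sum_nonneg fun m _ => by positivity
  rw [hDQ, h1']
  exact h2.trans (mul_le_mul h3 h4 h5 (by positivity))

end Vale.Agent.P042.R2.H600
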