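import Vale.Agent.P042.R2.H600.Prachar
import Vale.Agent.P042.R2.H600.Sparse

/-!
P042: pairs of moduli with a large gcd, and the weighted pigeonhole.
-/

set_option autoImplicit false

namespace Vale.Agent.P042.R2.H600

open Finset

theorem gcd_prod_le (z : ℕ) {F F' : Finset ℕ} (hF : F ⊆ Qs z) (hF' : F' ⊆ Qs z) (hz : 1 ≤ z) :
    Nat.gcd (∏ q ∈ F, q) (∏ q ∈ F', q) ≤ z ^ (F ∩ F').card := by
  classical
  set g := Nat.gcd (∏ q ∈ F, q) (∏ q ∈ F', q) with hg
  have hFp : ∀ q ∈ F, q.Prime := fun q hq => (mem_filter.1 (hF hq)).2.1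
  have hFp' : ∀ q ∈ F', q.Prime := fun q hq => (mem_filter.1 (hF' hq)).2.1
  have h1 : g ∣ ∏ q ∈ F, q := Nat.gcd_dvd_left _ _
  have h2 : g ∣ ∏ q ∈ F', q := Nat.gcd_dvd_right _ _
  have hsq : Squarefree (∏ q ∈ F, q) :=
    Finset.squarefree_prod_of_pairwise_isCoprime (fun p hp q hq hne =>
      Nat.coprime_iff_isRelPrime.1 ((Nat.coprime_primes (hFp p hp) (hFp q hq)).2 hne))
      (fun p hp => (hFp p hp).squarefree)
  have hgsq : Squarefree g := hsq.squarefree_of_dvd h1
  have hsub : g.primeFactors ⊆ F ∩ F' := by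
    intro p hp
    have hpp := Nat.prime_of_mem_primeFactors hp
    have hpg := Nat.dvd_of_mem_primeFactors hp
    have e1 := Nat.primeFactors_prod hFp
    have e2 := Nat.primeFactors_prod hFp'
    have n1 : (∏ q ∈ F, q) ≠ 0 := (prod_pos fun q hq => (hFp q hq).pos).ne'
    have n2 : (∏ q ∈ F', q) ≠ 0 := (prod_pos fun q hq => (hFp' q hq).pos).ne'
    refine mem_inter.2 ⟨?_, ?_⟩
    · rw [← e1]
      exact Nat.mem_primeFactors.2 ⟨hpp, hpg.trans h1, n1⟩
    · rw [← e2]
      exact Nat.mem_primeFactors.2 ⟨hpp, hpg.trans h2, n2⟩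
  calc g = ∏ p ∈ g.primeFactors, p := (Nat.prod_primeFactors_of_squarefree hgsq).symm
    _ ≤ z ^ g.primeFactors.card := prod_le_pow_card _ _ _ fun p hp =>
        (mem_Icc.1 (mem_filter.1 (hF (mem_inter.1 (hsub hp)).1)).1).2
    _ ≤ z ^ (F ∩ F').card := Nat.pow_le_pow_right (by omega) (card_le_card hsub)

theorem card_containing (A T : Finset ℕ) (r j : ℕ) (hT : T ⊆ A) (hTj : T.card = j) :
    ((powersetCard r A).filter (fun F => T ⊆ F)).card ≤ (A.card - j).choose (r - j) := by
  classical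
  have h1 : (A \ T).card = A.card - j := by
    rw [card_sdiff_of_subset hT, hTj]
  rw [← h1, ← card_powersetCard (r - j) (A \ T)]
  refine card_le_card_of_injOn (fun F => F \ T) ?_ ?_
  · intro F hF
    obtain ⟨h2, h3⟩ := mem_filter.1 (mem_coe.1 hF)
    obtain ⟨h4, h5⟩ := mem_powersetCard.1 h2
    refine mem_coe.2 (mem_powersetCard.2 ⟨sdiff_subset_sdiff h4 le_rfl, ?_⟩)
    rw [card_sdiff_of_subset h3, h5, hTj]
  · intro F hF F' hF' h
    have h3 := (mem_filter.1 (mem_coe.1 hF)).2
    have h3' := (mem_filter.1 (mem_coe.1 hF')).2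
    have h' : F \ T = F' \ T := h
    rw [← sdiff_union_of_subset h3, ← sdiff_union_of_subset h3', h']

/-- pairs with at least `j` common elements -/
theorem card_pairs (A : Finset ℕ) (r j : ℕ) :
    (((powersetCard r A) ×ˢ (powersetCard r A)).filter (fun i => j ≤ (i.1 ∩ i.2).card)).card ≤
      A.card.choose j * ((A.card - j).choose (r - j)) ^ 2 := by
  classical
  have hsub : ((powersetCard r A) ×ˢ (powersetCard r A)).filter (fun i => j ≤ (i.1 ∩ i.2).card) ⊆
      (powersetCard j A).biUnion (fun T => ((powersetCard r A).filter (fun F => T ⊆ F)) ×ˢ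
        ((powersetCard r A).filter (fun F => T ⊆ F))) := by
    intro i hi
    obtain ⟨h1, h2⟩ := mem_filter.1 hi
    obtain ⟨h3, h4⟩ := mem_product.1 h1
    obtain ⟨T, hT, hTj⟩ := exists_subset_card_eq h2
    have h5 : T ⊆ i.1 := hT.trans inter_subset_left
    have h6 : T ⊆ i.2 := hT.trans inter_subset_right
    refine mem_biUnion.2 ⟨T, mem_powersetCard.2 ⟨h5.trans (mem_powersetCard.1 h3).1, hTj⟩, ?_⟩
    exact mem_product.2 ⟨mem_filter.2 ⟨h3, h5⟩, mem_filter.2 ⟨h4, h6⟩⟩
  refine (card_le_card hsub).trans (card_biUnion_le.trans ?_)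
  calc ∑ T ∈ powersetCard j A, (((powersetCard r A).filter (fun F => T ⊆ F)) ×ˢ
        ((powersetCard r A).filter (fun F => T ⊆ F))).card
      ≤ ∑ T ∈ powersetCard j A, ((A.card - j).choose (r - j)) ^ 2 := by
        refine sum_le_sum fun T hT => ?_
        obtain ⟨h1, h2⟩ := mem_powersetCard.1 hT
        rw [card_product, sq]
        exact Nat.mul_le_mul (card_containing A T r j h1 h2) (card_containing A T r j h1 h2)
    _ = _ := by rw [sum_const, card_powersetCard, smul_eq_mul]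

theorem bad_le (z r i : ℕ) (hz : 1 ≤ z) (hr : i + 1 ≤ r) (hn : 2 * (i + 1) ≤ (Qs z).card)
    (hrn : r ≤ (Qs z).card) :
    bad (DD z r) (z ^ i) * (Qs z).card ^ (i + 1) ≤
      2 ^ (i + 1) * (i + 1).factorial * r ^ (2 * (i + 1)) * (DD z r).card ^ 2 := by
  classical
  set n := (Qs z).card with hn'
  set j := i + 1 with hj
  have h1 : bad (DD z r) (z ^ i) ≤ n.choose j * ((n - j).choose (r - j)) ^ 2 := by
    refine le_trans ?_ (card_pairs (Qs z) r j)
    rw [bad]
    have hsub : (DD z r ×ˢ DD z r).filter (fun i' => z ^ i < Nat.gcd i'.1 i'.2) ⊆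
        (((powersetCard r (Qs z)) ×ˢ (powersetCard r (Qs z))).filter
          (fun i => j ≤ (i.1 ∩ i.2).card)).image
          (fun i => (∏ q ∈ i.1, q, ∏ q ∈ i.2, q)) := by
      intro p hp
      obtain ⟨h1, h2⟩ := mem_filter.1 hp
      obtain ⟨h3, h4⟩ := mem_product.1 h1
      obtain ⟨F, hF, hF2⟩ := mem_image.1 h3
      obtain ⟨F', hF', hF2'⟩ := mem_image.1 h4
      refine mem_image.2 ⟨(F, F'), mem_filter.2 ⟨mem_product.2 ⟨hF, hF'⟩, ?_⟩, ?_⟩
      · by_contra h
        have h5 : (F ∩ F').card ≤ i := by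
          have : ¬ j ≤ (F ∩ F').card := h
          omega
        have h6 := gcd_prod_le z (mem_powersetCard.1 hF).1 (mem_powersetCard.1 hF').1 hz
        rw [hF2, hF2'] at h6
        have h7 : z ^ (F ∩ F').card ≤ z ^ i := Nat.pow_le_pow_right (by omega) h5
        omega
      · exact Prod.ext hF2 hF2'
    exact (card_le_card hsub).trans card_image_le
  have h2 : n.choose r * r.choose j = n.choose j * (n - j).choose (r - j) :=
    Nat.choose_mul hr
  have h3 : n.choose j * bad (DD z r) (z ^ i) ≤ (n.choose r * r.choose j) ^ 2 := by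
    rw [h2]
    calc n.choose j * bad (DD z r) (z ^ i)
        ≤ n.choose j * (n.choose j * ((n - j).choose (r - j)) ^ 2) := Nat.mul_le_mul_left _ h1
      _ = _ := by ring
  have h4 : (n + 1 - j) ^ j ≤ j.factorial * n.choose j := by
    have := Nat.pow_le_choose (α := ℚ) j n
    rw [div_le_iff₀' (by positivity)] at this
    exact_mod_cast this
  have h5 : n ^ j ≤ 2 ^ j * (n + 1 - j) ^ j := by
    rw [← mul_pow]
    exact Nat.pow_le_pow_left (by omega) _
  have h6 : r.choose j ≤ r ^ j := Nat.choose_le_pow r j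
  rw [card_DD, ← hn']
  calc bad (DD z r) (z ^ i) * n ^ j ≤ bad (DD z r) (z ^ i) * (2 ^ j * (j.factorial * n.choose j)) :=
        Nat.mul_le_mul_left _ (h5.trans (Nat.mul_le_mul_left _ h4))
    _ = 2 ^ j * j.factorial * (n.choose j * bad (DD z r) (z ^ i)) := by ring
    _ ≤ 2 ^ j * j.factorial * (n.choose r * r.choose j) ^ 2 := Nat.mul_le_mul_left _ h3
    _ ≤ 2 ^ j * j.factorial * (n.choose r * r ^ j) ^ 2 :=
        Nat.mul_le_mul_left _ (Nat.pow_le_pow_left (Nat.mul_le_mul_left _ h6) 2)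
    _ = 2 ^ j * j.factorial * r ^ (2 * j) * n.choose r ^ 2 := by ring

/-- the weighted pigeonhole -/
theorem pigeon2 (x : ℝ) (hx : 1 ≤ x) (D : Finset ℕ) (hD1 : ∀ d ∈ D, 1 ≤ d) (Y : ℕ) (c : ℝ)
    (hc : 0 < c) (hPS : (D.card : ℝ) * x / c ≤ ∑ d ∈ D, (d : ℝ) * (PS x d).card)
    (hY : c * (1 + Real.log x) * Y < D.card) :
    ∃ k : ℕ, 1 ≤ k ∧ (k : ℝ) ≤ x ∧ Y ≤ (D.filter (fun d => (d * k + 1).Prime)).card := by
  classical
  by_contra hcon
  push Not at hcon
  have hx0 : 0 < x := by linarith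
  set X : ℕ := ⌊x⌋₊ with hX
  have hX1 : 1 ≤ X := Nat.le_floor (by simpa using hx)
  have hXx : (X : ℝ) ≤ x := Nat.floor_le hx0.le
  have h1 : ∀ d ∈ D, (d : ℝ) * (PS x d).card ≤
      ∑ k ∈ Icc 1 X, (if (d * k + 1).Prime then x / k else 0) := by
    intro d hd
    have hd1 := hD1 d hd
    have hdr : (0 : ℝ) < d := by exact_mod_cast hd1
    have hsub : PS x d ⊆ ((Icc 1 X).filter (fun k => (d * k + 1).Prime ∧ d * k ≤ X)).image
        (fun k => d * k + 1) := by
      intro p hp
      obtain ⟨h1, h2, h3⟩ := mem_filter.1 hp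
      obtain ⟨k, hk⟩ := h3
      have hp2 := h2.two_le
      have hpX := (mem_Icc.1 h1).2
      have hpe : p = d * k + 1 := by omega
      have hk1 : 1 ≤ k := by
        rcases Nat.eq_zero_or_pos k with rfl | h
        · omega
        · exact h
      have hkd : k ≤ d * k := Nat.le_mul_of_pos_left _ (by omega)
      refine mem_image.2 ⟨k, mem_filter.2 ⟨mem_Icc.2 ⟨hk1, by omega⟩, ?_, by omega⟩, hpe.symm⟩
      rw [← hpe]
      exact h2
    have h2 : ((PS x d).card : ℝ) ≤
        ((Icc 1 X).filter (fun k => (d * k + 1).Prime ∧ d * k ≤ X)).card := by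
      exact_mod_cast (card_le_card hsub).trans card_image_le
    calc (d : ℝ) * (PS x d).card
        ≤ d * ((Icc 1 X).filter (fun k => (d * k + 1).Prime ∧ d * k ≤ X)).card :=
          mul_le_mul_of_nonneg_left h2 hdr.le
      _ = ∑ k ∈ (Icc 1 X).filter (fun k => (d * k + 1).Prime ∧ d * k ≤ X), (d : ℝ) := by
          rw [sum_const, nsmul_eq_mul, mul_comm]
      _ = ∑ k ∈ Icc 1 X, (if (d * k + 1).Prime ∧ d * k ≤ X then (d : ℝ) else 0) := by
          rw [sum_filter]
      _ ≤ _ := by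
          refine sum_le_sum fun k hk => ?_
          have hk1 := (mem_Icc.1 hk).1
          have hkr : (0 : ℝ) < k := by exact_mod_cast hk1
          by_cases hp : (d * k + 1).Prime
          · rw [if_pos hp]
            by_cases h3 : d * k ≤ X
            · rw [if_pos ⟨hp, h3⟩, le_div_iff₀ hkr]
              have : (d : ℝ) * k ≤ X := by exact_mod_cast h3
              linarith
            · rw [if_neg (fun h => h3 h.2)]
              positivity
          · rw [if_neg hp, if_neg (fun h => hp h.1)]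
  have h2 : ∑ d ∈ D, (d : ℝ) * (PS x d).card ≤ x * Y * (1 + Real.log x) := by
    calc ∑ d ∈ D, (d : ℝ) * (PS x d).card
        ≤ ∑ d ∈ D, ∑ k ∈ Icc 1 X, (if (d * k + 1).Prime then x / k else 0) := sum_le_sum h1
      _ = ∑ k ∈ Icc 1 X, ∑ d ∈ D, (if (d * k + 1).Prime then x / k else 0) := sum_comm
      _ = ∑ k ∈ Icc 1 X, ((D.filter (fun d => (d * k + 1).Prime)).card : ℝ) * (x / k) := by
          refine sum_congr rfl fun k _ => ?_
          rw [← sum_filter, sum_const, nsmul_eq_mul]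
      _ ≤ ∑ k ∈ Icc 1 X, (Y : ℝ) * (x / k) := by
          refine sum_le_sum fun k hk => ?_
          obtain ⟨hk1, hk2⟩ := mem_Icc.1 hk
          have hkx : (k : ℝ) ≤ x := le_trans (by exact_mod_cast hk2) hXx
          have h3 := (hcon k hk1 hkx).le
          have h4 : ((D.filter (fun d => (d * k + 1).Prime)).card : ℝ) ≤ Y := by exact_mod_cast h3
          exact mul_le_mul_of_nonneg_right h4 (by positivity)
      _ = x * Y * ∑ k ∈ Icc 1 X, 1 / (k : ℝ) := by
          rw [mul_sum]
          refine sum_congr rfl fun k _ => ?_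
          ring
      _ ≤ x * Y * (1 + Real.log X) :=
          mul_le_mul_of_nonneg_left (Vale.Agent.P005.BV.harm_le X) (by positivity)
      _ ≤ x * Y * (1 + Real.log x) := by
          refine mul_le_mul_of_nonneg_left ?_ (by positivity)
          have := Real.log_le_log (by exact_mod_cast hX1) hXx
          linarith
  have h3 := hPS.trans h2
  rw [div_le_iff₀ hc] at h3
  have h4 : (D.card : ℝ) * x ≤ (c * (1 + Real.log x) * Y) * x := by linarith
  have h5 := le_of_mul_le_mul_right h4 hx0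
  linarith

end Vale.Agent.P042.R2.H600
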