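import Vale.Agent.P042.R2.H600.Lb

/-!
P042: a bound for `δ(P)`.
-/

set_option autoImplicit false

namespace Vale.Agent.P042.R2.H600

open Finset

/-- a bound for `δ(P)` -/
theorem del_le (P : Finset ℕ) (hP : P.Nonempty) (Y R : ℝ) (hY : 0 < Y) (hR : 0 < R)
    (h3 : ∀ p ∈ P, 3 ≤ p) (hPY : ∀ p ∈ P, Y ≤ (p : ℝ) - 1) (hRP : R ^ 2 ≤ P.card) :
    del P ≤ 2 / R + 1 / Y := by
  have hJ : (0 : ℝ) < P.card := by exact_mod_cast card_pos.2 hP
  have h1 : (P.card : ℝ) ≤ ∑ p ∈ P, Real.log p := by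
    calc (P.card : ℝ) = ∑ p ∈ P, (1 : ℝ) := by simp
      _ ≤ _ := by
          refine sum_le_sum fun p hp => ?_
          rw [Real.le_log_iff_exp_le (by have := h3 p hp; positivity)]
          have h4 : (3 : ℝ) ≤ p := by exact_mod_cast h3 p hp
          have h5 := Real.exp_one_lt_d9
          linarith
  have h2 : ∑ p ∈ P, Real.log ((p : ℝ) / (p - 1)) ≤ P.card * (1 / Y) := by
    rw [← nsmul_eq_mul]
    refine sum_le_card_nsmul _ _ _ fun p hp => ?_
    have h4 : (3 : ℝ) ≤ p := by exact_mod_cast h3 p hp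
    have h5 := hPY p hp
    have h6 : (0 : ℝ) < (p : ℝ) - 1 := by linarith
    calc Real.log ((p : ℝ) / (p - 1)) ≤ (p : ℝ) / (p - 1) - 1 :=
          Real.log_le_sub_one_of_pos (by positivity)
      _ = 1 / ((p : ℝ) - 1) := by field_simp; ring
      _ ≤ 1 / Y := one_div_le_one_div_of_le hY h5
  have h4 : Real.log (P.card + 1) ≤ 2 * √(P.card : ℝ) := by
    have h5 : (0 : ℝ) ≤ √(P.card : ℝ) := Real.sqrt_nonneg _
    have h6 : (P.card : ℝ) + 1 ≤ (√(P.card : ℝ) + 1) ^ 2 := by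
      have := Real.sq_sqrt hJ.le
      nlinarith
    calc Real.log (P.card + 1) ≤ Real.log ((√(P.card : ℝ) + 1) ^ 2) :=
          Real.log_le_log (by positivity) h6
      _ = 2 * Real.log (√(P.card : ℝ) + 1) := by
          rw [Real.log_pow]
          norm_num
      _ ≤ 2 * √(P.card : ℝ) := by
          have := Real.log_le_sub_one_of_pos (show 0 < √(P.card : ℝ) + 1 by positivity)
          linarith
  have h5 : R ≤ √(P.card : ℝ) := Real.le_sqrt_of_sq_le hRP
  have h6 : √(P.card : ℝ) ≤ P.card * (1 / R) := by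
    rw [mul_one_div, le_div_iff₀ hR]
    calc √(P.card : ℝ) * R ≤ √(P.card : ℝ) * √(P.card : ℝ) :=
          mul_le_mul_of_nonneg_left h5 (Real.sqrt_nonneg _)
      _ = P.card := Real.mul_self_sqrt hJ.le
  have h7 : 0 ≤ ∑ p ∈ P, Real.log ((p : ℝ) / (p - 1)) := by
    refine sum_nonneg fun p hp => Real.log_nonneg ?_
    have h4 : (3 : ℝ) ≤ p := by exact_mod_cast h3 p hp
    rw [le_div_iff₀ (by linarith)]
    linarith
  have h8 : 0 ≤ Real.log (P.card + 1) := Real.log_nonneg (by linarith)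
  calc del P = (Real.log (P.card + 1) + ∑ p ∈ P, Real.log (p / (p - 1))) / ∑ p ∈ P, Real.log p :=
        rfl
    _ ≤ (Real.log (P.card + 1) + ∑ p ∈ P, Real.log (p / (p - 1))) / P.card :=
        div_le_div_of_nonneg_left (by linarith) hJ h1
    _ ≤ (2 * (P.card * (1 / R)) + P.card * (1 / Y)) / P.card := by
        gcongr
        linarith
    _ = 2 / R + 1 / Y := by
        field_simp

end Vale.Agent.P042.R2.H600
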