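import Mathlib

/-!
P042: sets of residues without differences in the `m`-th powers, when all `p - 1` divide `m`.
-/

set_option autoImplicit false

namespace Vale.Agent.P042.R2.H600

open Finset

/-- Fermat: modulo `p` an `m`-th power is `0` or `1` when `p - 1` divides `m`. -/
theorem pow_zmod (p m : ℕ) (hp : p.Prime) (hm : 1 ≤ m) (hpm : p - 1 ∣ m) (s : ℤ) :
    ((s : ZMod p)) ^ m = 0 ∨ ((s : ZMod p)) ^ m = 1 := by
  have := Fact.mk hp
  by_cases h : (s : ZMod p) = 0
  · left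
    rw [h]
    exact zero_pow (by omega)
  · right
    obtain ⟨t, rfl⟩ := hpm
    rw [pow_mul, ZMod.pow_card_sub_one_eq_one h, one_pow]

theorem step (p m x y : ℕ) (hp : p.Prime) (hm : 1 ≤ m) (hpm : p - 1 ∣ m) (s : ℤ)
    (hx : x % p + 1 < p) (h : (p : ℤ) ∣ (y : ℤ) - x - s ^ m) :
    y % p = x % p ∨ y % p = x % p + 1 := by
  have := Fact.mk hp
  have h1 : ((((y : ℤ) - x - s ^ m : ℤ)) : ZMod p) = 0 := (ZMod.intCast_zmod_eq_zero_iff_dvd _ p).2 h
  push_cast at h1
  rcases pow_zmod p m hp hm hpm s with h2 | h2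
  · left
    rw [h2, sub_zero, sub_eq_zero] at h1
    exact (ZMod.natCast_eq_natCast_iff' _ _ _).1 h1
  · right
    rw [h2, sub_sub, sub_eq_zero] at h1
    have h3 : ((y : ℕ) : ZMod p) = ((x + 1 : ℕ) : ZMod p) := by push_cast; exact h1
    have h4 := (ZMod.natCast_eq_natCast_iff' _ _ _).1 h3
    rw [h4, Nat.add_mod, Nat.mod_eq_of_lt hp.one_lt]
    exact Nat.mod_eq_of_lt hx

/-- the residues with `x mod p ≤ p - 2` for all `p ∈ P` -/
def T (P : Finset ℕ) : Finset ℕ :=
  (range (∏ p ∈ P, p)).filter (fun x => ∀ p ∈ P, x % p + 1 < p)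

theorem coprime_pairwise {P : Finset ℕ} (hP : ∀ p ∈ P, p.Prime) :
    Set.Pairwise (P : Set ℕ) (Function.onFun Nat.Coprime (fun p => p)) := by
  intro p hp q hq hne
  exact (Nat.coprime_primes (hP p hp) (hP q hq)).2 hne

theorem card_T (P : Finset ℕ) (hP : ∀ p ∈ P, p.Prime) :
    ∏ p ∈ P, (p - 1) ≤ (T P).card := by
  classical
  have hc : (P.pi (fun p => range (p - 1))).card = ∏ p ∈ P, (p - 1) := by
    rw [card_pi]
    simp
  rw [← hc]
  have hne : ∀ p ∈ P, (fun p : ℕ => p) p ≠ 0 := fun p hp => (hP p hp).ne_zero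
  let F : (∀ p ∈ P, ℕ) → ℕ := fun a =>
    (Nat.chineseRemainderOfFinset (fun p => if h : p ∈ P then a p h else 0) (fun p => p) P hne
      (coprime_pairwise hP) : ℕ)
  have hF : ∀ a, ∀ p, ∀ hp : p ∈ P, F a ≡ a p hp [MOD p] := by
    intro a p hp
    have := (Nat.chineseRemainderOfFinset (fun p => if h : p ∈ P then a p h else 0) (fun p => p) P
      hne (coprime_pairwise hP)).2 p hp
    simpa [dif_pos hp] using this
  have hFm : ∀ a ∈ P.pi (fun p => range (p - 1)), ∀ p, ∀ hp : p ∈ P, F a % p = a p hp := by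
    intro a ha p hp
    have h1 := hF a p hp
    have h2 : a p hp < p - 1 := mem_range.1 (mem_pi.1 ha p hp)
    rw [Nat.ModEq, Nat.mod_eq_of_lt (show a p hp < p by omega)] at h1
    exact h1
  refine card_le_card_of_injOn F ?_ ?_
  · intro a ha
    have ha' := mem_coe.1 ha
    refine mem_coe.2 (mem_filter.2 ⟨mem_range.2 ?_, ?_⟩)
    · exact Nat.chineseRemainderOfFinset_lt_prod _ _ _ _
    · intro p hp
      rw [hFm a ha' p hp]
      have h2 : a p hp < p - 1 := mem_range.1 (mem_pi.1 ha' p hp)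
      omega
  · intro a ha b hb hab
    funext p hp
    rw [← hFm a (mem_coe.1 ha) p hp, ← hFm b (mem_coe.1 hb) p hp, hab]

theorem exists_set (m : ℕ) (hm : 1 ≤ m) (P : Finset ℕ) (hP : ∀ p ∈ P, p.Prime)
    (hPm : ∀ p ∈ P, p - 1 ∣ m) :
    ∃ S : Finset ℕ, (∀ x ∈ S, x < ∏ p ∈ P, p) ∧
      ∏ p ∈ P, (p - 1) ≤ (P.card + 1) * S.card ∧
      ∀ x ∈ S, ∀ y ∈ S, ∀ s : ℤ, ((∏ p ∈ P, p : ℕ) : ℤ) ∣ (y : ℤ) - x - s ^ m → x = y := by
  classical
  let w : ℕ → ℕ := fun x => (∑ p ∈ P, x % p) % (P.card + 1)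
  have hmap : ∀ x ∈ T P, w x ∈ range (P.card + 1) := fun x _ =>
    mem_range.2 (Nat.mod_lt _ (Nat.succ_pos _))
  obtain ⟨c, -, hc⟩ : ∃ c ∈ range (P.card + 1),
      (T P).card ≤ (P.card + 1) * ((T P).filter (fun x => w x = c)).card := by
    by_contra hcon
    push Not at hcon
    have h1 := card_eq_sum_card_fiberwise hmap
    have h2 : (P.card + 1) * (T P).card < (P.card + 1) * (T P).card := by
      calc (P.card + 1) * (T P).card
          = ∑ c ∈ range (P.card + 1), (P.card + 1) * ((T P).filter (fun x => w x = c)).card := by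
            rw [← mul_sum, ← h1]
        _ < ∑ c ∈ range (P.card + 1), (T P).card :=
            sum_lt_sum_of_nonempty ⟨0, by simp⟩ hcon
        _ = _ := by simp
    exact lt_irrefl _ h2
  refine ⟨(T P).filter (fun x => w x = c), ?_, (card_T P hP).trans hc, ?_⟩
  · intro x hx
    exact mem_range.1 (mem_filter.1 (mem_filter.1 hx).1).1
  · intro x hx y hy s hs
    obtain ⟨hxT, hxc⟩ := mem_filter.1 hx
    obtain ⟨hyT, hyc⟩ := mem_filter.1 hy
    obtain ⟨hxb, hxp⟩ := mem_filter.1 hxT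
    obtain ⟨hyb, hyp⟩ := mem_filter.1 hyT
    have hst : ∀ p ∈ P, y % p = x % p ∨ y % p = x % p + 1 := by
      intro p hp
      refine step p m x y (hP p hp) hm (hPm p hp) s (hxp p hp) ?_
      refine dvd_trans ?_ hs
      exact_mod_cast dvd_prod_of_mem (fun p => p) hp
    have hle : ∀ p ∈ P, x % p ≤ y % p := fun p hp => by
      rcases hst p hp with h | h <;> omega
    have hsum : ∑ p ∈ P, y % p = ∑ p ∈ P, x % p + ∑ p ∈ P, (y % p - x % p) := by
      rw [← sum_add_distrib]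
      refine sum_congr rfl fun p hp => ?_
      have := hle p hp
      omega
    have hj : ∑ p ∈ P, (y % p - x % p) ≤ P.card := by
      calc ∑ p ∈ P, (y % p - x % p) ≤ ∑ p ∈ P, 1 := by
            refine sum_le_sum fun p hp => ?_
            rcases hst p hp with h | h <;> omega
        _ = P.card := by simp
    have hmod : (∑ p ∈ P, x % p) ≡ (∑ p ∈ P, y % p) [MOD (P.card + 1)] := by
      change w x = w y
      rw [hxc, hyc]
    have hd : P.card + 1 ∣ ∑ p ∈ P, (y % p - x % p) := by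
      have h1 := (Nat.modEq_iff_dvd' (by rw [hsum]; exact Nat.le_add_right _ _)).1 hmod
      rw [hsum, Nat.add_sub_cancel_left] at h1
      exact h1
    have h0 : ∑ p ∈ P, (y % p - x % p) = 0 :=
      Nat.eq_zero_of_dvd_of_lt hd (by omega)
    have heq : ∀ p ∈ P, x ≡ y [MOD p] := by
      intro p hp
      have h1 := (sum_eq_zero_iff.1 h0) p hp
      have h2 := hle p hp
      have h3 : x % p = y % p := by omega
      exact h3
    have hb : x ≡ y [MOD ∏ p ∈ P, p] := by
      refine (Nat.modEq_iff_dvd).2 ?_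
      push_cast
      refine Finset.prod_dvd_of_coprime ?_ ?_
      · intro p hp q hq hne
        exact Nat.isCoprime_iff_coprime.2 ((Nat.coprime_primes (hP p hp) (hP q hq)).2 hne)
      · intro p hp
        exact (Nat.modEq_iff_dvd).1 (heq p hp)
    rw [Nat.ModEq, Nat.mod_eq_of_lt (mem_range.1 hxb), Nat.mod_eq_of_lt (mem_range.1 hyb)] at hb
    exact hb

end Vale.Agent.P042.R2.H600
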