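import Vale.Agent.P042.LB.H409.Gen
import Vale.Agent.P042.R2.H600.Res

/-!
P042: the lower bound for `h = a g ^ m` from a set of primes `p` with `p - 1 ∣ m`.
-/

set_option autoImplicit false

namespace Vale.Agent.P042.R2.H600

open Finset Polynomial Vale.Agent.P042 Vale.Agent.P042.LB

/-- `δ(P)` -/
noncomputable def del (P : Finset ℕ) : ℝ :=
  (Real.log (P.card + 1) + ∑ p ∈ P, Real.log (p / (p - 1))) / ∑ p ∈ P, Real.log p

theorem lb_set (g : ℤ[X]) (hg : Squarefree (g.map (Int.castRingHom ℚ))) (hgd : 1 ≤ g.natDegree)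
    (a m : ℕ) (ha : 0 < a) (hm : 2 ≤ m) (P : Finset ℕ) (hP0 : P.Nonempty)
    (hP : ∀ p ∈ P, p.Prime) (hPm : ∀ p ∈ P, p - 1 ∣ m) :
    ∃ c : ℝ, 0 < c ∧ ∀ N : ℕ, 1 ≤ N →
      c * (N : ℝ) ^ (1 - del P / ((m * g.natDegree : ℕ) : ℝ)) ≤
        (rMax (C (a : ℤ) * g ^ m) N : ℝ) := by
  classical
  obtain ⟨S, hS, hSc, hSU⟩ := exists_set m (by omega) P hP hPm
  set b : ℕ := ∏ p ∈ P, p with hb
  have hb2 : 2 ≤ b := by
    obtain ⟨p, hp⟩ := hP0
    have h1 : p ∣ b := dvd_prod_of_mem (fun p => p) hp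
    have h2 : 0 < b := prod_pos fun q hq => (hP q hq).pos
    exact (hP p hp).two_le.trans (Nat.le_of_dvd h2 h1)
  have hbsq : Squarefree b := by
    refine Finset.squarefree_prod_of_pairwise_isCoprime (fun p hp q hq hne => ?_)
      (fun p hp => (hP p hp).squarefree)
    exact Nat.coprime_iff_isRelPrime.1 ((Nat.coprime_primes (hP p hp) (hP q hq)).2 hne)
  have hprod : 0 < ∏ p ∈ P, (p - 1) := prod_pos fun q hq => by
    have := (hP q hq).two_le
    omega
  have hScard : 0 < S.card := by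
    by_contra h
    have : S.card = 0 := by omega
    rw [this, mul_zero] at hSc
    omega
  obtain ⟨c, hc, hmain⟩ := lb_gen (1 : ℤ[X]) g hg hgd a m b ha hm hb2 hbsq
    (fun n => by rw [eval_one]; exact isCoprime_one_left) S hS (card_pos.1 hScard)
    (fun x hx y hy n s _ h => hSU x hx y hy s (by simpa using h))
  refine ⟨c, hc, fun N hN => ?_⟩
  have h1 := hmain N hN
  rw [one_mul] at h1
  refine le_trans ?_ h1
  refine mul_le_mul_of_nonneg_left ?_ hc.le
  have hN1 : (1 : ℝ) ≤ N := by exact_mod_cast hN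
  refine Real.rpow_le_rpow_of_exponent_le hN1 ?_
  have hdeg : (g ^ m).natDegree = m * g.natDegree := natDegree_pow g m
  rw [hdeg]
  have hk0 : (0 : ℝ) < ((m * g.natDegree : ℕ) : ℝ) := by
    exact_mod_cast Nat.mul_pos (by omega) (by omega)
  have hlogb : Real.log b = ∑ p ∈ P, Real.log p := by
    rw [hb, Nat.cast_prod, Real.log_prod]
    intro p hp
    exact_mod_cast (hP p hp).ne_zero
  have hlb : 0 < Real.log b := Real.log_pos (by exact_mod_cast (by omega : 1 < b))
  have hkey : 1 - Real.log S.card / Real.log b ≤ del P := by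
    rw [del, ← hlogb, one_sub_div hlb.ne', div_le_div_iff_of_pos_right hlb]
    have h2 : ∑ p ∈ P, Real.log ((p : ℝ) / (p - 1)) = Real.log b
        - Real.log ((∏ p ∈ P, (p - 1) : ℕ) : ℝ) := by
      rw [hlogb, Nat.cast_prod, Real.log_prod, ← sum_sub_distrib]
      · refine sum_congr rfl fun p hp => ?_
        have hp2 := (hP p hp).two_le
        have hp2' : (2 : ℝ) ≤ p := by exact_mod_cast hp2
        rw [Nat.cast_sub (by omega), Nat.cast_one, Real.log_div (by positivity) (by linarith)]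
      · intro p hp
        have hp2 := (hP p hp).two_le
        exact_mod_cast (by omega : p - 1 ≠ 0)
    have h3 : Real.log ((∏ p ∈ P, (p - 1) : ℕ) : ℝ) ≤ Real.log (P.card + 1)
        + Real.log S.card := by
      rw [← Real.log_mul (by positivity) (by exact_mod_cast hScard.ne')]
      refine Real.log_le_log (by exact_mod_cast hprod) ?_
      exact_mod_cast hSc
    rw [h2]
    linarith
  have := div_le_div_of_nonneg_right hkey hk0.le
  linarith

end Vale.Agent.P042.R2.H600
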