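import Vale.Agent.P042.R2.H600.Core
import Vale.Agent.P042.R2.H600.Del

/-!
P042: lower bounds with a saving `exp (- (log m) ^ θ) / k`, `θ < 1 / 2`.
-/

set_option autoImplicit false

namespace Vale.Agent.P042.R2.H600

open Finset

/-- the final numerical inequality -/
theorem final_num (w L T : ℝ) (f : ℕ) (hw : 32768 ≤ w) (hf : w / 800 - 1 ≤ f)
    (hT : T ≤ 3 * w / 10 ^ 8) (hL : L = (2 : ℝ) ^ f) : 3 / L ≤ Real.exp (-T) := by
  have hL0 : 0 < L := by rw [hL]; positivity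
  have h2 := Real.log_two_gt_d9
  have hlog : Real.log L = f * Real.log 2 := by rw [hL, Real.log_pow]
  have h3 : (3 : ℝ) ≤ Real.exp 2 := by
    have := Real.add_one_le_exp (2 : ℝ)
    linarith
  have h4 : T + 2 ≤ Real.log L := by
    rw [hlog]
    have h5 : (w / 800 - 1) * 0.69 ≤ f * Real.log 2 := by
      have : (0 : ℝ) ≤ w / 800 - 1 := by linarith
      calc (w / 800 - 1) * 0.69 ≤ (w / 800 - 1) * Real.log 2 :=
            mul_le_mul_of_nonneg_left (by linarith) this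
        _ ≤ f * Real.log 2 := mul_le_mul_of_nonneg_right hf (by linarith)
    have h6 : 3 * w / 10 ^ 8 + 2 ≤ (w / 800 - 1) * 0.69 := by
      norm_num
      linarith
    linarith
  rw [div_le_iff₀ hL0]
  calc (3 : ℝ) ≤ Real.exp 2 := h3
    _ = Real.exp (-T) * Real.exp (T + 2) := by
        rw [← Real.exp_add]; congr 1; ring
    _ ≤ Real.exp (-T) * L := by
        refine mul_le_mul_of_nonneg_left ?_ (Real.exp_pos _).le
        calc Real.exp (T + 2) ≤ Real.exp (Real.log L) := Real.exp_le_exp.2 h4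
          _ = L := Real.exp_log hL0

/-- For every `θ < 1 / 2` there are arbitrarily large even `m` and a set `P` of primes `p` with
`p - 1 ∣ m` and `δ(P) ≤ exp (- (log m) ^ θ)`. -/
theorem exists_m2 (θ : ℝ) (h0 : 0 < θ) (h1 : θ < 1 / 2) (M0 : ℕ) : ∃ m : ℕ, M0 ≤ m ∧ 3 ≤ m ∧
    Even m ∧ ∃ P : Finset ℕ, P.Nonempty ∧ (∀ p ∈ P, p.Prime) ∧ (∀ p ∈ P, p - 1 ∣ m) ∧
      del P ≤ Real.exp (-(Real.log m) ^ θ) := by
  classical
  obtain ⟨a, ha⟩ : ∃ a : ℕ, 1 / (1 - 2 * θ) ≤ a := exists_nat_ge _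
  have hθ2 : 0 < 1 - 2 * θ := by linarith
  rw [div_le_iff₀ hθ2] at ha
  have ha1 : 1 ≤ a := by
    by_contra h
    have : a = 0 := by omega
    rw [this, Nat.cast_zero, zero_mul] at ha
    linarith
  have haθ : (8 * (a : ℝ) + 4) * θ ≤ 4 * a - 2 := by linarith
  obtain ⟨s, W, z, r, n, hpar, f6, f7, k, hk1, hkx, hkJ⟩ := (core a M0 ha1).exists
  have hdge := hpar.d_ge
  have hW := hpar.hW
  have hz := hpar.hz
  have hs := hpar.hs
  have f5 := hpar.f5
  have hWr1 : (32768 : ℝ) ≤ W := by exact_mod_cast f5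
  obtain ⟨Dk, hDk⟩ : ∃ Dk, Dk = (DD z r).filter (fun d => (d * k + 1).Prime) := ⟨_, rfl⟩
  rw [← hDk] at hkJ
  obtain ⟨Wz, hWz⟩ : ∃ Wz, Wz = ∏ q ∈ Qs z, q := ⟨_, rfl⟩
  obtain ⟨R, hR⟩ : ∃ R, R = 2 ^ (W / 800) := ⟨_, rfl⟩
  rw [← hR] at hdge
  have hR1 : 2 ^ 40 ≤ R := by
    rw [hR]
    exact Nat.pow_le_pow_right (by norm_num) (by omega)
  have hR3 : 3 ≤ R := le_trans (by norm_num) hR1
  have hWpos : 0 < Wz := by
    rw [hWz]
    exact prod_pos fun q hq => (mem_filter.1 hq).2.1.pos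
  obtain ⟨P, hPdef⟩ : ∃ P, P = Dk.image (fun d => d * k + 1) := ⟨_, rfl⟩
  have hPcard : P.card = Dk.card := by
    rw [hPdef, card_image_of_injOn]
    intro d _ e _ h
    have h' : d * k + 1 = e * k + 1 := h
    exact Nat.eq_of_mul_eq_mul_right (by omega : 0 < k) (by omega)
  have hDkpos : 0 < Dk.card := lt_of_lt_of_le (by positivity) hkJ
  have hPne : P.Nonempty := card_pos.1 (by rw [hPcard]; exact hDkpos)
  have hDsub : ∀ d ∈ Dk, d ∈ DD z r := fun d hd => by
    rw [hDk] at hd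
    exact (mem_filter.1 hd).1
  have hPp : ∀ p ∈ P, p.Prime := by
    intro p hp
    rw [hPdef] at hp
    obtain ⟨d, hd, rfl⟩ := mem_image.1 hp
    rw [hDk] at hd
    exact (mem_filter.1 hd).2
  have hPd : ∀ p ∈ P, p - 1 ∣ k * Wz := by
    intro p hp
    rw [hPdef] at hp
    obtain ⟨d, hd, rfl⟩ := mem_image.1 hp
    rw [Nat.add_sub_cancel, mul_comm k Wz, hWz]
    exact Nat.mul_dvd_mul_right (DD_dvd (hDsub d hd)) k
  have hPY : ∀ p ∈ P, R ≤ p - 1 := by
    intro p hp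
    rw [hPdef] at hp
    obtain ⟨d, hd, rfl⟩ := mem_image.1 hp
    rw [Nat.add_sub_cancel]
    exact (hdge d (hDsub d hd)).trans (Nat.le_mul_of_pos_right _ (by omega))
  have hP3 : ∀ p ∈ P, 3 ≤ p := fun p hp => by have := hPY p hp; omega
  -- a prime of `Qs z`
  have hz2s : 2 ^ s ≤ z := by
    rw [hz]
    exact Nat.pow_le_pow_right (by norm_num) (Nat.le_mul_of_pos_left _ (by omega))
  have hQne : (Qs z).Nonempty := by
    rw [← card_pos, ← hpar.hn]
    have := hpar.hWn1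
    omega
  obtain ⟨q, hq⟩ := hQne
  have hqW : q ≤ Wz := by
    rw [hWz] at hWpos ⊢
    exact Nat.le_of_dvd hWpos (dvd_prod_of_mem (fun q => q) hq)
  have hqM : M0 ≤ q := by
    have h1 : z < q ^ 2 := (mem_filter.1 hq).2.2
    by_contra h
    push Not at h
    have h2 : q ^ 2 < M0 ^ 2 := Nat.pow_lt_pow_left h (by norm_num)
    omega
  have hWm : Wz ≤ k * Wz := Nat.le_mul_of_pos_left _ (by omega)
  have hmpos : 0 < k * Wz := Nat.mul_pos (by omega) hWpos
  obtain ⟨p0, hp0⟩ := hPne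
  have hmR : R ≤ k * Wz := (hPY p0 hp0).trans (Nat.le_of_dvd hmpos (hPd p0 hp0))
  refine ⟨k * Wz, (hqM.trans hqW).trans hWm, by omega, ?_, P, ⟨p0, hp0⟩, hPp, hPd, ?_⟩
  · have h1 : p0 ≠ 2 := by
      have := hPY p0 hp0
      omega
    have h2 : Odd p0 := (hPp p0 hp0).odd_of_ne_two h1
    have h3 : Even (p0 - 1) := by
      rcases h2 with ⟨j, hj⟩
      exact ⟨j, by omega⟩
    exact even_iff_two_dvd.2 ((even_iff_two_dvd.1 h3).trans (hPd p0 hp0))
  · -- the size of `m`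
    have hW4 : Wz ≤ 4 ^ z := by
      refine le_trans ?_ (primorial_le_four_pow z)
      refine Nat.le_of_dvd (primorial_pos z) ?_
      rw [primorial, hWz]
      refine prod_dvd_prod_of_subset _ _ _ ?_
      intro q hq
      obtain ⟨h1, h2, -⟩ := mem_filter.1 hq
      have h3 := (mem_Icc.1 h1).2
      simp only [mem_filter, mem_range]
      exact ⟨by omega, h2⟩
    have hWz' : (W : ℝ) ≤ z := by
      have : W ≤ z := by
        rw [hW, hz]
        exact Nat.pow_le_pow_right (by norm_num) (Nat.mul_le_mul_right _ (by omega))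
      exact_mod_cast this
    have hlog : Real.log ((k * Wz : ℕ) : ℝ) ≤ 3 * z := by
      have hk0 : (0 : ℝ) < k := by exact_mod_cast hk1
      have hW0 : (0 : ℝ) < Wz := by exact_mod_cast hWpos
      rw [Nat.cast_mul, Real.log_mul hk0.ne' hW0.ne']
      have h1 : Real.log k ≤ W := by
        have := Real.log_le_log hk0 hkx
        rwa [Real.log_exp] at this
      have h2 : Real.log Wz ≤ 2 * z := by
        have h3 : (Wz : ℝ) ≤ 4 ^ z := by exact_mod_cast hW4
        calc Real.log Wz ≤ Real.log ((4 : ℝ) ^ z) := Real.log_le_log hW0 h3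
          _ = z * Real.log 4 := Real.log_pow _ _
          _ ≤ z * 2 := by
              refine mul_le_mul_of_nonneg_left ?_ (by positivity)
              have h4 : Real.log 4 = 2 * Real.log 2 := by
                rw [show (4 : ℝ) = 2 ^ 2 by norm_num, Real.log_pow]
                norm_num
              have := Real.log_two_lt_d9
              linarith
          _ = 2 * z := by ring
      linarith
    have hlog0 : 0 ≤ Real.log ((k * Wz : ℕ) : ℝ) := Real.log_natCast_nonneg _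
    -- `(log m) ^ θ`
    have hzθ : (z : ℝ) ^ θ ≤ W / 10 ^ 8 := by
      have e1 : (z : ℝ) = (2 : ℝ) ^ ((8 * (a : ℝ) + 4) * s) := by
        rw [hz]
        push_cast
        rw [← Real.rpow_natCast]
        push_cast
        rfl
      have e2 : (W : ℝ) = (2 : ℝ) ^ (4 * (a : ℝ) * s) := by
        rw [hW]
        push_cast
        rw [← Real.rpow_natCast]
        push_cast
        rfl
      have hs0 : (0 : ℝ) ≤ s := by positivity
      have e3 : (z : ℝ) ^ θ ≤ (2 : ℝ) ^ (4 * (a : ℝ) * s - 2 * s) := by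
        rw [e1, ← Real.rpow_mul (by norm_num)]
        refine Real.rpow_le_rpow_of_exponent_le (by norm_num) ?_
        calc (8 * (a : ℝ) + 4) * s * θ = ((8 * (a : ℝ) + 4) * θ) * s := by ring
          _ ≤ (4 * a - 2) * s := mul_le_mul_of_nonneg_right haθ hs0
          _ = _ := by ring
      refine e3.trans ?_
      rw [Real.rpow_sub (by norm_num), ← e2]
      refine div_le_div_of_nonneg_left (by linarith) (by norm_num) ?_
      have e4 : (2 : ℝ) ^ (2 * (s : ℝ)) = ((2 : ℝ) ^ s) ^ 2 := by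
        rw [mul_comm, Real.rpow_mul (by norm_num), Real.rpow_natCast]
        norm_cast
      rw [e4]
      have e5 : (10000 : ℝ) ≤ 2 ^ s := by exact_mod_cast f6
      calc (10 : ℝ) ^ 8 = 10000 ^ 2 := by norm_num
        _ ≤ (2 ^ s) ^ 2 := pow_le_pow_left₀ (by norm_num) e5 2
    have hT : (Real.log ((k * Wz : ℕ) : ℝ)) ^ θ ≤ 3 * W / 10 ^ 8 := by
      calc (Real.log ((k * Wz : ℕ) : ℝ)) ^ θ ≤ (3 * (z : ℝ)) ^ θ :=
            Real.rpow_le_rpow hlog0 hlog h0.le
        _ = 3 ^ θ * (z : ℝ) ^ θ := Real.mul_rpow (by norm_num) (by positivity)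
        _ ≤ 3 * (W / 10 ^ 8) := by
            refine mul_le_mul ?_ hzθ (by positivity) (by norm_num)
            calc (3 : ℝ) ^ θ ≤ 3 ^ (1 : ℝ) :=
                  Real.rpow_le_rpow_of_exponent_le (by norm_num) (by linarith)
              _ = 3 := Real.rpow_one 3
        _ = _ := by ring
    have hRr : (0 : ℝ) < R := by exact_mod_cast (by omega : 0 < R)
    have hRP : (R : ℝ) ^ 2 ≤ P.card := by
      rw [hPcard]
      have h1 : R ^ 2 ≤ Dk.card := by
        refine le_trans ?_ hkJ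
        rw [hR, ← pow_mul]
        exact Nat.pow_le_pow_right (by norm_num) (by omega)
      exact_mod_cast h1
    have hdel := del_le P ⟨p0, hp0⟩ (R : ℝ) (R : ℝ) hRr hRr hP3
      (fun p hp => by
        have h1 := hPY p hp
        have h2 : 1 ≤ p := by omega
        have h3 : (R : ℝ) ≤ ((p - 1 : ℕ) : ℝ) := by exact_mod_cast h1
        rw [Nat.cast_sub h2, Nat.cast_one] at h3
        exact h3) hRP
    refine hdel.trans ?_
    have h3R : 2 / (R : ℝ) + 1 / R = 3 / R := by ring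
    rw [h3R]
    refine final_num (W : ℝ) (R : ℝ) _ (W / 800) hWr1 ?_ hT ?_
    · have h8 : W < 800 * (W / 800) + 800 := by omega
      have h9 : (W : ℝ) < 800 * ((W / 800 : ℕ) : ℝ) + 800 := by exact_mod_cast h8
      linarith
    · rw [hR]
      push_cast
      rfl

open Polynomial in
theorem lb_exp (θ : ℝ) (h0 : 0 < θ) (h1 : θ < 1 / 2) (M : ℕ) : ∃ m : ℕ, M ≤ m ∧ 2 ≤ m ∧ Even m ∧
    ∀ (g : ℤ[X]) (a : ℕ), Squarefree (g.map (Int.castRingHom ℚ)) → 1 ≤ g.natDegree → 0 < a →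
    ∃ c : ℝ, 0 < c ∧ ∀ N : ℕ, 1 ≤ N →
      c * (N : ℝ) ^ (1 - Real.exp (-(Real.log m) ^ θ) / ((m * g.natDegree : ℕ) : ℝ))
        ≤ (Vale.Agent.P042.rMax (C (a : ℤ) * g ^ m) N : ℝ) := by
  obtain ⟨m, e1, e2, e3, P, hP0, hP, hPm, hdel⟩ := exists_m2 θ h0 h1 M
  refine ⟨m, e1, by omega, e3, fun g a hg hd ha => ?_⟩
  obtain ⟨c, hc, h⟩ := lb_set g hg hd a m ha (by omega) P hP0 hP hPm
  refine ⟨c, hc, fun N hN => le_trans ?_ (h N hN)⟩
  refine mul_le_mul_of_nonneg_left ?_ hc.le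
  have hN1 : (1 : ℝ) ≤ N := by exact_mod_cast hN
  refine Real.rpow_le_rpow_of_exponent_le hN1 ?_
  have hk : (0 : ℝ) < ((m * g.natDegree : ℕ) : ℝ) := by
    exact_mod_cast Nat.mul_pos (by omega) (by omega)
  have h4 : del P / ((m * g.natDegree : ℕ) : ℝ) ≤
      Real.exp (-(Real.log m) ^ θ) / ((m * g.natDegree : ℕ) : ℝ) :=
    div_le_div_of_nonneg_right hdel hk.le
  linarith

open Polynomial in
theorem no_exp (θ : ℝ) (h0 : 0 < θ) (h1 : θ < 1 / 2) (κ : ℝ) (hκ : 0 < κ) (K : ℕ) :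
    ∃ k : ℕ, K ≤ k ∧ 2 ≤ k ∧ Even k ∧ ∀ B : ℝ,
    ∃ N : ℕ, 1 ≤ N ∧ B * (N : ℝ) ^ (1 - κ * Real.exp (-(Real.log k) ^ θ) / (k : ℝ)) <
      (Vale.Agent.P042.rMax (X ^ k) N : ℝ) := by
  set θ' : ℝ := (θ + 1 / 2) / 2 with hθ'
  have hθθ' : θ < θ' := by rw [hθ']; linarith
  -- the comparison of the two savings
  have hev : ∀ᶠ k : ℕ in Filter.atTop,
      Real.exp (-(Real.log k) ^ θ') < κ * Real.exp (-(Real.log k) ^ θ) := by
    have hL : Filter.Tendsto (fun k : ℕ => Real.log (k : ℝ)) Filter.atTop Filter.atTop :=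
      Real.tendsto_log_atTop.comp tendsto_natCast_atTop_atTop
    have t1 := (tendsto_rpow_atTop (show 0 < θ' - θ by linarith)).comp hL
    have t2 := (tendsto_rpow_atTop h0).comp hL
    filter_upwards [t1.eventually_ge_atTop 2, t2.eventually_ge_atTop (|Real.log κ| + 1),
      hL.eventually_ge_atTop 1] with k e1 e2 e3
    simp only [Function.comp] at e1 e2
    have hL0 : 0 < Real.log k := by linarith
    have e4 : (Real.log k) ^ θ' = (Real.log k) ^ θ * (Real.log k) ^ (θ' - θ) := by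
      rw [← Real.rpow_add hL0]; congr 1; ring
    have e5 : 2 * (Real.log k) ^ θ ≤ (Real.log k) ^ θ' := by
      rw [e4, mul_comm]
      have h6 : 0 ≤ (Real.log k) ^ θ := Real.rpow_nonneg hL0.le _
      exact mul_le_mul_of_nonneg_left e1 h6
    have e6 := neg_abs_le (Real.log κ)
    calc Real.exp (-(Real.log k) ^ θ') < Real.exp (Real.log κ + -(Real.log k) ^ θ) :=
          Real.exp_lt_exp.2 (by linarith)
      _ = κ * Real.exp (-(Real.log k) ^ θ) := by rw [Real.exp_add, Real.exp_log hκ]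
  obtain ⟨K1, hK1⟩ := Filter.eventually_atTop.1 hev
  obtain ⟨k, e1, e2, e3, h⟩ := lb_exp θ' (by linarith) (by rw [hθ']; linarith) (K + K1)
  have hcmp := hK1 k (by omega)
  refine ⟨k, by omega, e2, e3, fun B => ?_⟩
  obtain ⟨c, hc, hN⟩ := h X 1 (by simpa using (Polynomial.irreducible_X (R := ℚ)).squarefree)
    (by simp) one_pos
  simp only [natDegree_X, mul_one, Nat.cast_one, C_1, one_mul] at hN
  have hk0 : (0 : ℝ) < k := by exact_mod_cast (by omega : 0 < k)
  generalize Real.exp (-(Real.log k) ^ θ') = u at hcmp hN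
  generalize κ * Real.exp (-(Real.log k) ^ θ) = v at hcmp ⊢
  set τ : ℝ := v / k - u / k with hτ
  have hτ0 : 0 < τ := by
    rw [hτ, sub_pos]
    exact div_lt_div_of_pos_right hcmp hk0
  have htend : Filter.Tendsto (fun N : ℕ => (N : ℝ) ^ τ) Filter.atTop Filter.atTop :=
    (tendsto_rpow_atTop hτ0).comp tendsto_natCast_atTop_atTop
  obtain ⟨N, hN1, hN2⟩ := ((htend.eventually_gt_atTop (B / c)).and
    (Filter.eventually_ge_atTop 1)).exists
  refine ⟨N, hN2, lt_of_lt_of_le ?_ (hN N hN2)⟩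
  have hN0 : (0 : ℝ) < N := by exact_mod_cast hN2
  have h9 : 1 - u / (k : ℝ) = τ + (1 - v / k) := by
    rw [hτ]; ring
  rw [h9, Real.rpow_add hN0, ← mul_assoc]
  refine mul_lt_mul_of_pos_right ?_ (Real.rpow_pos_of_pos hN0 _)
  rw [div_lt_iff₀ hc] at hN1
  linarith

end Vale.Agent.P042.R2.H600
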