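import Vale.Agent.P042.R2.H600.Main2

/-!
P042: lower bounds with a saving `exp (- (log m) ^ θ) / k`, `θ < 1 / 2`, for at least
`M ^ (1 - ε)` of the numbers `m ≤ M`.
-/

set_option autoImplicit false

namespace Vale.Agent.P042.R2.H600

open Finset

/-- for every large `s`, a number `m` with `log m ≤ 3 z` and a large set of primes -/
theorem exists_s (a : ℕ) (ha1 : 1 ≤ a) : ∀ᶠ s : ℕ in Filter.atTop, ∃ m : ℕ, 3 ≤ m ∧ Even m ∧
    Real.log m ≤ 3 * ((2 : ℝ) ^ (8 * a + 4)) ^ s ∧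
    ∃ P : Finset ℕ, P.Nonempty ∧ (∀ p ∈ P, p.Prime) ∧ (∀ p ∈ P, p - 1 ∣ m) ∧
      del P ≤ 3 / (2 : ℝ) ^ (2 ^ (4 * a * s) / 800) ∧ 32768 ≤ 2 ^ (4 * a * s) := by
  classical
  filter_upwards [core a 0 ha1] with s hcore
  obtain ⟨W, z, r, n, hpar, f6, -, k, hk1, hkx, hkJ⟩ := hcore
  have hdge := hpar.d_ge
  have hW := hpar.hW
  have hz := hpar.hz
  have hs := hpar.hs
  have f5 := hpar.f5
  have hWr1 : (32768 : ℝ) ≤ W := by exact_mod_cast f5
  rw [← hW]
  have hzr : ((2 : ℝ) ^ (8 * a + 4)) ^ s = z := by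
    rw [hz, ← pow_mul]
    push_cast
    rfl
  rw [hzr]
  obtain ⟨Dk, hDk⟩ : ∃ Dk, Dk = (DD z r).filter (fun d => (d * k + 1).Prime) := ⟨_, rfl⟩
  rw [← hDk] at hkJ
  obtain ⟨Wz, hWz⟩ : ∃ Wz, Wz = ∏ q ∈ Qs z, q := ⟨_, rfl⟩
  obtain ⟨R, hR⟩ : ∃ R, R = 2 ^ (W / 800) := ⟨_, rfl⟩
  rw [← hR] at hdge
  have hR1 : 2 ^ 40 ≤ R := by
    rw [hR]
    exact Nat.pow_le_pow_right (by norm_num) (by omega)
  have hR3 : 3 ≤ R := le_trans (by norm_num) hR1
  have hWpos : 0 < Wz := by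
    rw [hWz]
    exact prod_pos fun q hq => (mem_filter.1 hq).2.1.pos
  obtain ⟨P, hPdef⟩ : ∃ P, P = Dk.image (fun d => d * k + 1) := ⟨_, rfl⟩
  have hPcard : P.card = Dk.card := by
    rw [hPdef, card_image_of_injOn]
    intro d _ e _ h
    have h' : d * k + 1 = e * k + 1 := h
    exact Nat.eq_of_mul_eq_mul_right (by omega : 0 < k) (by omega)
  have hDkpos : 0 < Dk.card := lt_of_lt_of_le (by positivity) hkJ
  have hPne : P.Nonempty := card_pos.1 (by rw [hPcard]; exact hDkpos)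
  have hDsub : ∀ d ∈ Dk, d ∈ DD z r := fun d hd => by
    rw [hDk] at hd
    exact (mem_filter.1 hd).1
  have hPp : ∀ p ∈ P, p.Prime := by
    intro p hp
    rw [hPdef] at hp
    obtain ⟨d, hd, rfl⟩ := mem_image.1 hp
    rw [hDk] at hd
    exact (mem_filter.1 hd).2
  have hPd : ∀ p ∈ P, p - 1 ∣ k * Wz := by
    intro p hp
    rw [hPdef] at hp
    obtain ⟨d, hd, rfl⟩ := mem_image.1 hp
    rw [Nat.add_sub_cancel, mul_comm k Wz, hWz]
    exact Nat.mul_dvd_mul_right (DD_dvd (hDsub d hd)) k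
  have hPY : ∀ p ∈ P, R ≤ p - 1 := by
    intro p hp
    rw [hPdef] at hp
    obtain ⟨d, hd, rfl⟩ := mem_image.1 hp
    rw [Nat.add_sub_cancel]
    exact (hdge d (hDsub d hd)).trans (Nat.le_mul_of_pos_right _ (by omega))
  have hP3 : ∀ p ∈ P, 3 ≤ p := fun p hp => by have := hPY p hp; omega
  have hmpos : 0 < k * Wz := Nat.mul_pos (by omega) hWpos
  obtain ⟨p0, hp0⟩ := hPne
  have hmR : R ≤ k * Wz := (hPY p0 hp0).trans (Nat.le_of_dvd hmpos (hPd p0 hp0))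
  refine ⟨k * Wz, by omega, ?_, ?_, P, ⟨p0, hp0⟩, hPp, hPd, ?_, f5⟩
  · have h1 : p0 ≠ 2 := by
      have := hPY p0 hp0
      omega
    have h2 : Odd p0 := (hPp p0 hp0).odd_of_ne_two h1
    have h3 : Even (p0 - 1) := by
      rcases h2 with ⟨j, hj⟩
      exact ⟨j, by omega⟩
    exact even_iff_two_dvd.2 ((even_iff_two_dvd.1 h3).trans (hPd p0 hp0))
  · -- the size of `m`
    have hW4 : Wz ≤ 4 ^ z := by
      refine le_trans ?_ (primorial_le_four_pow z)
      refine Nat.le_of_dvd (primorial_pos z) ?_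
      rw [primorial, hWz]
      refine prod_dvd_prod_of_subset _ _ _ ?_
      intro q hq
      obtain ⟨h1, h2, -⟩ := mem_filter.1 hq
      have h3 := (mem_Icc.1 h1).2
      simp only [mem_filter, mem_range]
      exact ⟨by omega, h2⟩
    have hWz' : (W : ℝ) ≤ z := by
      have : W ≤ z := by
        rw [hW, hz]
        exact Nat.pow_le_pow_right (by norm_num) (Nat.mul_le_mul_right _ (by omega))
      exact_mod_cast this
    have hk0 : (0 : ℝ) < k := by exact_mod_cast hk1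
    have hW0 : (0 : ℝ) < Wz := by exact_mod_cast hWpos
    rw [Nat.cast_mul, Real.log_mul hk0.ne' hW0.ne']
    have h1 : Real.log k ≤ W := by
      have := Real.log_le_log hk0 hkx
      rwa [Real.log_exp] at this
    have h2 : Real.log Wz ≤ 2 * z := by
      have h3 : (Wz : ℝ) ≤ 4 ^ z := by exact_mod_cast hW4
      calc Real.log Wz ≤ Real.log ((4 : ℝ) ^ z) := Real.log_le_log hW0 h3
        _ = z * Real.log 4 := Real.log_pow _ _
        _ ≤ z * 2 := by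
            refine mul_le_mul_of_nonneg_left ?_ (by positivity)
            have h4 : Real.log 4 = 2 * Real.log 2 := by
              rw [show (4 : ℝ) = 2 ^ 2 by norm_num, Real.log_pow]
              norm_num
            have := Real.log_two_lt_d9
            linarith
        _ = 2 * z := by ring
    linarith
  · have hRr : (0 : ℝ) < R := by exact_mod_cast (by omega : 0 < R)
    have hRP : (R : ℝ) ^ 2 ≤ P.card := by
      rw [hPcard]
      have h1 : R ^ 2 ≤ Dk.card := by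
        refine le_trans ?_ hkJ
        rw [hR, ← pow_mul]
        exact Nat.pow_le_pow_right (by norm_num) (by omega)
      exact_mod_cast h1
    have hdel := del_le P ⟨p0, hp0⟩ (R : ℝ) (R : ℝ) hRr hRr hP3
      (fun p hp => by
        have h1 := hPY p hp
        have h2 : 1 ≤ p := by omega
        have h3 : (R : ℝ) ≤ ((p - 1 : ℕ) : ℝ) := by exact_mod_cast h1
        rw [Nat.cast_sub h2, Nat.cast_one] at h3
        exact h3) hRP
    refine hdel.trans (le_of_eq ?_)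
    rw [hR]
    push_cast
    ring

/-- for every large `M`, a number `d ≤ M ^ ε` whose multiples `≤ M` are good -/
theorem exists_d (θ ε : ℝ) (h0 : 0 < θ) (h1 : θ < 1 / 2) (hε : 0 < ε) :
    ∃ M0 : ℕ, ∀ M : ℕ, M0 ≤ M → ∃ d : ℕ, 3 ≤ d ∧ Even d ∧ (d : ℝ) ≤ (M : ℝ) ^ ε ∧
      ∃ P : Finset ℕ, P.Nonempty ∧ (∀ p ∈ P, p.Prime) ∧ (∀ p ∈ P, p - 1 ∣ d) ∧
        del P ≤ Real.exp (-(Real.log M) ^ θ) := by
  obtain ⟨a, ha⟩ : ∃ a : ℕ, 1 / (1 - 2 * θ) ≤ a := exists_nat_ge _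
  have hθ2 : 0 < 1 - 2 * θ := by linarith
  rw [div_le_iff₀ hθ2] at ha
  have ha1 : 1 ≤ a := by
    by_contra h
    have : a = 0 := by omega
    rw [this, Nat.cast_zero, zero_mul] at ha
    linarith
  have haθ : (8 * (a : ℝ) + 4) * θ ≤ 4 * a - 2 := by linarith
  set b : ℝ := (2 : ℝ) ^ (8 * a + 4) with hb
  have hb1 : 1 < b := by
    rw [hb]
    exact one_lt_pow₀ (by norm_num) (by omega)
  set C : ℝ := (3 * b / ε) ^ θ with hC
  have hC0 : 0 ≤ C := Real.rpow_nonneg (by positivity) _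
  have hev : ∀ᶠ s : ℕ in Filter.atTop, C * 10 ^ 8 ≤ (4 : ℝ) ^ s :=
    (tendsto_pow_atTop_atTop_of_one_lt (by norm_num : (1 : ℝ) < 4)).eventually_ge_atTop _
  obtain ⟨s0, hs0⟩ := Filter.eventually_atTop.1 ((exists_s a ha1).and hev)
  have hL : Filter.Tendsto (fun M : ℕ => Real.log (M : ℝ)) Filter.atTop Filter.atTop :=
    Real.tendsto_log_atTop.comp tendsto_natCast_atTop_atTop
  obtain ⟨M0, hM0⟩ := Filter.eventually_atTop.1
    ((hL.eventually_ge_atTop (3 * b ^ s0 / ε)).and (Filter.eventually_ge_atTop 1))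
  refine ⟨M0, fun M hM => ?_⟩
  obtain ⟨hM1, hM2⟩ := hM0 M hM
  have hMr : (1 : ℝ) ≤ M := by exact_mod_cast hM2
  rw [div_le_iff₀ hε] at hM1
  have hbs0 : 1 ≤ b ^ s0 := one_le_pow₀ hb1.le
  obtain ⟨s, hs1, hs2⟩ := exists_nat_pow_near (x := Real.log M * ε / 3) (by linarith) hb1
  have hss0 : s0 ≤ s := by
    by_contra h
    push Not at h
    have h2 : b ^ (s + 1) ≤ b ^ s0 := pow_le_pow_right₀ hb1.le h
    linarith
  obtain ⟨⟨m, hm3, hme, hmlog, P, hPne, hPp, hPd, hdel, h32⟩, hCs⟩ := hs0 s hss0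
  refine ⟨m, hm3, hme, ?_, P, hPne, hPp, hPd, hdel.trans ?_⟩
  · have hm0 : (0 : ℝ) < m := by exact_mod_cast (by omega : 0 < m)
    have h2 : Real.log m ≤ Real.log M * ε := by linarith
    calc (m : ℝ) = Real.exp (Real.log m) := (Real.exp_log hm0).symm
      _ ≤ Real.exp (Real.log M * ε) := Real.exp_le_exp.2 h2
      _ = (M : ℝ) ^ ε := (Real.rpow_def_of_pos (by linarith) _).symm
  · obtain ⟨W, hW⟩ : ∃ W : ℕ, W = 2 ^ (4 * a * s) := ⟨_, rfl⟩
    rw [← hW] at h32 ⊢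
    have hWr1 : (32768 : ℝ) ≤ W := by exact_mod_cast h32
    refine final_num (W : ℝ) _ _ (W / 800) hWr1 ?_ ?_ rfl
    · have h8 : W < 800 * (W / 800) + 800 := by omega
      have h9 : (W : ℝ) < 800 * ((W / 800 : ℕ) : ℝ) + 800 := by exact_mod_cast h8
      linarith
    · have hlogM : Real.log M ≤ 3 * b / ε * b ^ s := by
        have h2 : Real.log M * ε ≤ 3 * b * b ^ s := by
          rw [pow_succ] at hs2
          linarith
        rw [div_mul_eq_mul_div, le_div_iff₀ hε]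
        exact h2
      have hlog0 : 0 ≤ Real.log M := Real.log_nonneg hMr
      have hzθ : (b ^ s) ^ θ ≤ W / 4 ^ s := by
        have e1 : b ^ s = (2 : ℝ) ^ ((8 * (a : ℝ) + 4) * s) := by
          rw [hb, ← pow_mul, ← Real.rpow_natCast]
          push_cast
          rfl
        have e2 : (W : ℝ) = (2 : ℝ) ^ (4 * (a : ℝ) * s) := by
          rw [hW]
          push_cast
          rw [← Real.rpow_natCast]
          push_cast
          rfl
        have hs0 : (0 : ℝ) ≤ s := by positivity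
        have e3 : (b ^ s) ^ θ ≤ (2 : ℝ) ^ (4 * (a : ℝ) * s - 2 * s) := by
          rw [e1, ← Real.rpow_mul (by norm_num)]
          refine Real.rpow_le_rpow_of_exponent_le (by norm_num) ?_
          calc (8 * (a : ℝ) + 4) * s * θ = ((8 * (a : ℝ) + 4) * θ) * s := by ring
            _ ≤ (4 * a - 2) * s := mul_le_mul_of_nonneg_right haθ hs0
            _ = _ := by ring
        refine e3.trans (le_of_eq ?_)
        rw [Real.rpow_sub (by norm_num), ← e2]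
        congr 1
        rw [Real.rpow_mul (by norm_num), Real.rpow_natCast]
        norm_num
      have h4s : (0 : ℝ) < 4 ^ s := by positivity
      calc (Real.log M) ^ θ ≤ (3 * b / ε * b ^ s) ^ θ := Real.rpow_le_rpow hlog0 hlogM h0.le
        _ = C * (b ^ s) ^ θ := Real.mul_rpow (by positivity) (by positivity)
        _ ≤ C * (W / 4 ^ s) := mul_le_mul_of_nonneg_left hzθ hC0
        _ ≤ 3 * W / 10 ^ 8 := by
            rw [mul_div_assoc', div_le_div_iff₀ h4s (by norm_num)]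
            have hWn : (0 : ℝ) ≤ W := by linarith
            have q1 : (C * 10 ^ 8) * (W : ℝ) ≤ 4 ^ s * (W : ℝ) :=
              mul_le_mul_of_nonneg_right hCs hWn
            have q2 : (0 : ℝ) ≤ 4 ^ s * (W : ℝ) := by positivity
            linarith

/-- for every large `M` at least `M ^ (1 - ε)` of the numbers `m ≤ M` are good -/
theorem exists_S (θ ε : ℝ) (h0 : 0 < θ) (h1 : θ < 1 / 2) (hε : 0 < ε) (hε1 : ε < 1) (L : ℕ) :
    ∃ M0 : ℕ, ∀ M : ℕ, M0 ≤ M → ∃ S : Finset ℕ, S ⊆ Icc 2 M ∧ (M : ℝ) ^ (1 - ε) ≤ S.card ∧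
      ∀ m ∈ S, Even m ∧ L ≤ m ∧
      ∃ P : Finset ℕ, P.Nonempty ∧ (∀ p ∈ P, p.Prime) ∧ (∀ p ∈ P, p - 1 ∣ m) ∧
        del P ≤ Real.exp (-(Real.log m) ^ θ) := by
  classical
  obtain ⟨M1, hM1⟩ := exists_d θ (ε / 2) h0 h1 (by linarith)
  have ht : Filter.Tendsto (fun M : ℕ => (M : ℝ) ^ (ε / 2)) Filter.atTop Filter.atTop :=
    (tendsto_rpow_atTop (by linarith)).comp tendsto_natCast_atTop_atTop
  obtain ⟨M2, hM2⟩ := Filter.eventually_atTop.1
    ((ht.eventually_ge_atTop ((L : ℝ) + 2)).and (Filter.eventually_ge_atTop 1))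
  refine ⟨M1 + M2, fun M hM => ?_⟩
  obtain ⟨d, hd3, hde, hdM, P, hPne, hPp, hPd, hdel⟩ := hM1 M (by omega)
  obtain ⟨hy, hMge⟩ := hM2 M (by omega)
  have hMr : (1 : ℝ) ≤ M := by exact_mod_cast hMge
  have hM0 : (0 : ℝ) < M := by linarith
  have hd0 : (0 : ℝ) < d := by exact_mod_cast (by omega : 0 < d)
  refine ⟨(Icc (L + 1) (M / d)).image (fun j => d * j), ?_, ?_, ?_⟩
  · intro m hm
    obtain ⟨j, hj, rfl⟩ := mem_image.1 hm
    obtain ⟨h2, h3⟩ := mem_Icc.1 hj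
    refine mem_Icc.2 ⟨?_, ?_⟩
    · calc 2 ≤ d * 1 := by omega
        _ ≤ d * j := Nat.mul_le_mul_left _ (by omega)
    · calc d * j ≤ d * (M / d) := Nat.mul_le_mul_left _ h3
        _ ≤ M := Nat.mul_div_le M d
  · have hcard : ((Icc (L + 1) (M / d)).image (fun j => d * j)).card = M / d + 1 - (L + 1) := by
      rw [card_image_of_injOn, Nat.card_Icc]
      intro i _ j _ h
      exact Nat.eq_of_mul_eq_mul_left (by omega : 0 < d) h
    rw [hcard]
    have e1 : (M : ℝ) / d < ((M / d : ℕ) : ℝ) + 1 := by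
      rw [div_lt_iff₀ hd0]
      have h2 : M < d * (M / d + 1) := Nat.lt_mul_div_succ M (by omega)
      have h3 : (M : ℝ) < d * (((M / d : ℕ) : ℝ) + 1) := by exact_mod_cast h2
      linarith
    have e2 : (M : ℝ) ^ (1 - ε) * (M : ℝ) ^ (ε / 2) ≤ (M : ℝ) / d := by
      rw [le_div_iff₀ hd0]
      calc (M : ℝ) ^ (1 - ε) * (M : ℝ) ^ (ε / 2) * d
          ≤ (M : ℝ) ^ (1 - ε) * (M : ℝ) ^ (ε / 2) * (M : ℝ) ^ (ε / 2) :=
            mul_le_mul_of_nonneg_left hdM (by positivity)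
        _ = (M : ℝ) := by
            rw [← Real.rpow_add hM0, ← Real.rpow_add hM0]
            have : 1 - ε + ε / 2 + ε / 2 = 1 := by ring
            rw [this, Real.rpow_one]
    have e3 : (1 : ℝ) ≤ (M : ℝ) ^ (1 - ε) := Real.one_le_rpow hMr (by linarith)
    have e4 : (M : ℝ) ^ (1 - ε) + (L + 1) ≤ (M : ℝ) ^ (1 - ε) * (M : ℝ) ^ (ε / 2) := by
      nlinarith
    have e5 : (M : ℝ) ^ (1 - ε) + L < ((M / d : ℕ) : ℝ) := by linarith
    have e6 : L ≤ M / d := by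
      have : (L : ℝ) < ((M / d : ℕ) : ℝ) := by linarith
      have h7 : L < M / d := by exact_mod_cast this
      omega
    have e7 : M / d + 1 - (L + 1) = M / d - L := by omega
    rw [e7, Nat.cast_sub e6]
    linarith
  · intro m hm
    obtain ⟨j, hj, rfl⟩ := mem_image.1 hm
    obtain ⟨h2, h3⟩ := mem_Icc.1 hj
    have hdj : j ≤ d * j := Nat.le_mul_of_pos_left _ (by omega)
    have hdjM : d * j ≤ M := by
      calc d * j ≤ d * (M / d) := Nat.mul_le_mul_left _ h3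
        _ ≤ M := Nat.mul_div_le M d
    refine ⟨hde.mul_right j, by omega, P, hPne, hPp, fun p hp => (hPd p hp).mul_right j,
      hdel.trans ?_⟩
    have h4 : (1 : ℝ) ≤ ((d * j : ℕ) : ℝ) := by exact_mod_cast (by omega : 1 ≤ d * j)
    have h5 : ((d * j : ℕ) : ℝ) ≤ M := by exact_mod_cast hdjM
    refine Real.exp_le_exp.2 (neg_le_neg ?_)
    exact Real.rpow_le_rpow (Real.log_nonneg h4) (Real.log_le_log (by linarith) h5) h0.le

open Polynomial in
theorem lb_of_del (m : ℕ) (hm : 2 ≤ m) (P : Finset ℕ) (hP0 : P.Nonempty)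
    (hP : ∀ p ∈ P, p.Prime) (hPm : ∀ p ∈ P, p - 1 ∣ m) (u : ℝ) (hdel : del P ≤ u)
    (g : ℤ[X]) (a : ℕ) (hg : Squarefree (g.map (Int.castRingHom ℚ))) (hd : 1 ≤ g.natDegree)
    (ha : 0 < a) : ∃ c : ℝ, 0 < c ∧ ∀ N : ℕ, 1 ≤ N →
      c * (N : ℝ) ^ (1 - u / ((m * g.natDegree : ℕ) : ℝ))
        ≤ (Vale.Agent.P042.rMax (C (a : ℤ) * g ^ m) N : ℝ) := by
  obtain ⟨c, hc, h⟩ := lb_set g hg hd a m ha hm P hP0 hP hPm
  refine ⟨c, hc, fun N hN => le_trans ?_ (h N hN)⟩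
  refine mul_le_mul_of_nonneg_left ?_ hc.le
  have hN1 : (1 : ℝ) ≤ N := by exact_mod_cast hN
  refine Real.rpow_le_rpow_of_exponent_le hN1 ?_
  have hk : (0 : ℝ) < ((m * g.natDegree : ℕ) : ℝ) := by
    exact_mod_cast Nat.mul_pos (by omega) (by omega)
  have h4 : del P / ((m * g.natDegree : ℕ) : ℝ) ≤ u / ((m * g.natDegree : ℕ) : ℝ) :=
    div_le_div_of_nonneg_right hdel hk.le
  exact sub_le_sub_left h4 1

open Polynomial in
theorem lb_dense (θ ε : ℝ) (h0 : 0 < θ) (h1 : θ < 1 / 2) (hε : 0 < ε) (hε1 : ε < 1) :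
    ∃ M0 : ℕ, ∀ M : ℕ, M0 ≤ M → ∃ S : Finset ℕ, S ⊆ Icc 2 M ∧ (M : ℝ) ^ (1 - ε) ≤ S.card ∧
    ∀ m ∈ S, Even m ∧
    ∀ (g : ℤ[X]) (a : ℕ), Squarefree (g.map (Int.castRingHom ℚ)) → 1 ≤ g.natDegree → 0 < a →
    ∃ c : ℝ, 0 < c ∧ ∀ N : ℕ, 1 ≤ N →
      c * (N : ℝ) ^ (1 - Real.exp (-(Real.log m) ^ θ) / ((m * g.natDegree : ℕ) : ℝ))
        ≤ (Vale.Agent.P042.rMax (C (a : ℤ) * g ^ m) N : ℝ) := by
  obtain ⟨M0, h⟩ := exists_S θ ε h0 h1 hε hε1 0
  refine ⟨M0, fun M hM => ?_⟩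
  obtain ⟨S, hS, hcard, hall⟩ := h M hM
  refine ⟨S, hS, hcard, fun m hm => ?_⟩
  obtain ⟨e1, -, P, hP0, hP, hPm, hdel⟩ := hall m hm
  have hm2 := (mem_Icc.1 (hS hm)).1
  exact ⟨e1, fun g a hg hd ha => lb_of_del m hm2 P hP0 hP hPm _ hdel g a hg hd ha⟩

open Polynomial in
theorem no_dense (θ ε : ℝ) (h0 : 0 < θ) (h1 : θ < 1 / 2) (hε : 0 < ε) (hε1 : ε < 1) (κ : ℝ)
    (hκ : 0 < κ) :
    ∃ K0 : ℕ, ∀ K : ℕ, K0 ≤ K → ∃ S : Finset ℕ, S ⊆ Icc 2 K ∧ (K : ℝ) ^ (1 - ε) ≤ S.card ∧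
    ∀ k ∈ S, Even k ∧ ∀ B : ℝ,
    ∃ N : ℕ, 1 ≤ N ∧ B * (N : ℝ) ^ (1 - κ * Real.exp (-(Real.log k) ^ θ) / (k : ℝ)) <
      (Vale.Agent.P042.rMax (X ^ k) N : ℝ) := by
  set θ' : ℝ := (θ + 1 / 2) / 2 with hθ'
  have hθθ' : θ < θ' := by rw [hθ']; linarith
  -- the comparison of the two savings
  have hev : ∀ᶠ k : ℕ in Filter.atTop,
      Real.exp (-(Real.log k) ^ θ') < κ * Real.exp (-(Real.log k) ^ θ) := by
    have hL : Filter.Tendsto (fun k : ℕ => Real.log (k : ℝ)) Filter.atTop Filter.atTop :=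
      Real.tendsto_log_atTop.comp tendsto_natCast_atTop_atTop
    have t1 := (tendsto_rpow_atTop (show 0 < θ' - θ by linarith)).comp hL
    have t2 := (tendsto_rpow_atTop h0).comp hL
    filter_upwards [t1.eventually_ge_atTop 2, t2.eventually_ge_atTop (|Real.log κ| + 1),
      hL.eventually_ge_atTop 1] with k e1 e2 e3
    simp only [Function.comp] at e1 e2
    have hL0 : 0 < Real.log k := by linarith
    have e4 : (Real.log k) ^ θ' = (Real.log k) ^ θ * (Real.log k) ^ (θ' - θ) := by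
      rw [← Real.rpow_add hL0]; congr 1; ring
    have e5 : 2 * (Real.log k) ^ θ ≤ (Real.log k) ^ θ' := by
      rw [e4, mul_comm]
      have h6 : 0 ≤ (Real.log k) ^ θ := Real.rpow_nonneg hL0.le _
      exact mul_le_mul_of_nonneg_left e1 h6
    have e6 := neg_abs_le (Real.log κ)
    calc Real.exp (-(Real.log k) ^ θ') < Real.exp (Real.log κ + -(Real.log k) ^ θ) :=
          Real.exp_lt_exp.2 (by linarith)
      _ = κ * Real.exp (-(Real.log k) ^ θ) := by rw [Real.exp_add, Real.exp_log hκ]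
  obtain ⟨K1, hK1⟩ := Filter.eventually_atTop.1 hev
  obtain ⟨M0, hM⟩ := exists_S θ' ε (by linarith) (by rw [hθ']; linarith) hε hε1 K1
  refine ⟨M0, fun K hK => ?_⟩
  obtain ⟨S, hS, hcard, hall⟩ := hM K hK
  refine ⟨S, hS, hcard, fun k hk => ?_⟩
  obtain ⟨e3, hkK, P, hP0, hP, hPm, hdel⟩ := hall k hk
  have hk2 := (mem_Icc.1 (hS hk)).1
  have hcmp := hK1 k hkK
  refine ⟨e3, fun B => ?_⟩
  obtain ⟨c, hc, hN⟩ := lb_of_del k hk2 P hP0 hP hPm _ hdel X 1
    (by simpa using (Polynomial.irreducible_X (R := ℚ)).squarefree) (by simp) one_pos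
  simp only [natDegree_X, mul_one, Nat.cast_one, C_1, one_mul] at hN
  have hk0 : (0 : ℝ) < k := by exact_mod_cast (by omega : 0 < k)
  generalize Real.exp (-(Real.log k) ^ θ') = u at hcmp hN
  generalize κ * Real.exp (-(Real.log k) ^ θ) = v at hcmp ⊢
  set τ : ℝ := v / k - u / k with hτ
  have hτ0 : 0 < τ := by
    rw [hτ, sub_pos]
    exact div_lt_div_of_pos_right hcmp hk0
  have htend : Filter.Tendsto (fun N : ℕ => (N : ℝ) ^ τ) Filter.atTop Filter.atTop :=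
    (tendsto_rpow_atTop hτ0).comp tendsto_natCast_atTop_atTop
  obtain ⟨N, hN1, hN2⟩ := ((htend.eventually_gt_atTop (B / c)).and
    (Filter.eventually_ge_atTop 1)).exists
  refine ⟨N, hN2, lt_of_lt_of_le ?_ (hN N hN2)⟩
  have hN0 : (0 : ℝ) < N := by exact_mod_cast hN2
  have h9 : 1 - u / (k : ℝ) = τ + (1 - v / k) := by
    rw [hτ]; ring
  rw [h9, Real.rpow_add hN0, ← mul_assoc]
  refine mul_lt_mul_of_pos_right ?_ (Real.rpow_pos_of_pos hN0 _)
  rw [div_lt_iff₀ hc] at hN1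
  linarith

end Vale.Agent.P042.R2.H600
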