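import Vale.Agent.P042.R2.H600.Weighted

/-!
P042: the parameters of the construction.
-/

set_option autoImplicit false

namespace Vale.Agent.P042.R2.H600

open Finset ArithmeticFunction Vale.Agent.P013.J Vale.Agent.P013.J.BV

open Vale.Agent.P005.BV (hi)

theorem ev_Qs_gen (hsw : SW) (t : ℕ) (ht : 1 ≤ t) :
    ∀ᶠ y : ℕ in Filter.atTop, y ^ t ≤ (Qs y).card ^ (t + 1) := by
  obtain ⟨x0, hx0⟩ := primes_sw hsw 1 one_pos
  have htr : (0 : ℝ) < 1 / ((t : ℝ) + 1) := by positivity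
  have hlo : Filter.Tendsto (fun x : ℝ => Real.log x / x ^ (1 / ((t : ℝ) + 1))) Filter.atTop
      (nhds 0) :=
    (isLittleO_log_rpow_atTop htr).tendsto_div_nhds_zero
  have hev : ∀ᶠ x : ℝ in Filter.atTop, Real.log x / x ^ (1 / ((t : ℝ) + 1)) < 1 / 8 ∧ x0 ≤ x ∧
      1 ≤ Real.log x ∧ 1 ≤ x := by
    filter_upwards [hlo.eventually (gt_mem_nhds (show (0 : ℝ) < 1 / 8 by norm_num)),
      Filter.eventually_ge_atTop x0, Real.tendsto_log_atTop.eventually_ge_atTop 1,
      Filter.eventually_ge_atTop 1] with x h1 h2 h3 h4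
    exact ⟨h1, h2, h3, h4⟩
  filter_upwards [tendsto_natCast_atTop_atTop.eventually hev] with y hy
  obtain ⟨e1, e2, e3, e4⟩ := hy
  have hy0 : (0 : ℝ) < y := by linarith
  have h1 := hx0 y e2 1 le_rfl (by rw [Real.rpow_one]; exact_mod_cast e3)
  rw [Nat.cast_one, mul_one] at h1
  have h2 := card_Qs_ge y
  rw [div_lt_iff₀ (by positivity)] at e1
  set u : ℝ := (y : ℝ) ^ (1 / ((t : ℝ) + 1)) with hu
  have hu1 : 1 ≤ u := Real.one_le_rpow e4 htr.le
  have hu4 : u ^ (t + 1) = y := by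
    rw [hu, ← Real.rpow_natCast, ← Real.rpow_mul hy0.le]
    push_cast
    rw [one_div, inv_mul_cancel₀ (by positivity), Real.rpow_one]
  have hs : √(y : ℝ) ≤ u ^ t := by
    rw [Real.sqrt_le_left (by positivity), ← pow_mul, ← hu4]
    exact pow_le_pow_right₀ hu1 (by omega)
  have h3 : 2 * u ^ t ≤ (y : ℝ) / (4 * Real.log y) := by
    rw [le_div_iff₀ (by positivity)]
    have : u ^ t * (Real.log y) ≤ u ^ t * (1 / 8 * u) :=
      mul_le_mul_of_nonneg_left e1.le (by positivity)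
    calc 2 * u ^ t * (4 * Real.log y) = 8 * (u ^ t * Real.log y) := by ring
      _ ≤ 8 * (u ^ t * (1 / 8 * u)) := by linarith
      _ = u ^ (t + 1) := by ring
      _ = y := hu4
  have h5 : u ^ t ≤ ((Qs y).card : ℝ) := by linarith
  have h6 : ((y : ℝ)) ^ t ≤ ((Qs y).card : ℝ) ^ (t + 1) := by
    calc (y : ℝ) ^ t = (u ^ t) ^ (t + 1) := by rw [← hu4]; ring
      _ ≤ _ := pow_le_pow_left₀ (by positivity) h5 _
  exact_mod_cast h6

theorem ev_pow2 (C : ℕ) : ∀ᶠ s : ℕ in Filter.atTop, C * (s + 1) ≤ 2 ^ s := by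
  have h : Filter.Tendsto (fun s : ℕ => ((s : ℝ) + 1) / 2 ^ s) Filter.atTop (nhds 0) := by
    have h1 := tendsto_pow_const_div_const_pow_of_one_lt 1 (show (1 : ℝ) < 2 by norm_num)
    have h2 := tendsto_pow_const_div_const_pow_of_one_lt 0 (show (1 : ℝ) < 2 by norm_num)
    have h3 := h1.add h2
    rw [add_zero] at h3
    refine h3.congr fun s => ?_
    rw [pow_one, pow_zero, add_div]
  have hC : (0 : ℝ) < 1 / ((C : ℝ) + 1) := by positivity
  filter_upwards [h.eventually (gt_mem_nhds hC)] with s hs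
  rw [div_lt_div_iff₀ (by positivity) (by positivity), one_mul] at hs
  have h4 : ((C * (s + 1) : ℕ) : ℝ) ≤ ((2 ^ s : ℕ) : ℝ) := by
    push_cast
    nlinarith
  exact_mod_cast h4

theorem ev_exp : ∀ᶠ w : ℝ in Filter.atTop, 655360 * w ^ 7 ≤ Real.exp (w / 4) := by
  have h := Real.tendsto_pow_mul_exp_neg_atTop_nhds_zero 7
  have h2 : Filter.Tendsto (fun w : ℝ => w / 4) Filter.atTop Filter.atTop :=
    Filter.tendsto_id.atTop_div_const (by norm_num)
  have h3 := h.comp h2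
  have hc : (0 : ℝ) < 1 / (655360 * 4 ^ 7) := by positivity
  filter_upwards [h3.eventually (gt_mem_nhds hc)] with w hw
  have hw' : (w / 4) ^ 7 * Real.exp (-(w / 4)) < 1 / (655360 * 4 ^ 7) := hw
  have hE : 0 < Real.exp (w / 4) := Real.exp_pos _
  rw [Real.exp_neg, ← div_eq_mul_inv, div_lt_div_iff₀ hE (by positivity), one_mul] at hw'
  calc 655360 * w ^ 7 = (w / 4) ^ 7 * (655360 * 4 ^ 7) := by ring
    _ ≤ _ := hw'.le

/-- the number of products of `r` primes is at least `W ^ r` -/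
theorem card_DD_ge (z r W : ℕ) (h : (W + 1) * r ≤ (Qs z).card) : W ^ r ≤ (DD z r).card := by
  rw [card_DD]
  set n := (Qs z).card with hn
  have h1 : (n + 1 - r) ^ r ≤ r.factorial * n.choose r := by
    have := Nat.pow_le_choose (α := ℚ) r n
    rw [div_le_iff₀' (by positivity)] at this
    exact_mod_cast this
  have h2 : W * r ≤ n + 1 - r := by
    have : (W + 1) * r = W * r + r := by ring
    omega
  have h3 : r.factorial * W ^ r ≤ r.factorial * n.choose r := by
    calc r.factorial * W ^ r ≤ r ^ r * W ^ r := Nat.mul_le_mul_right _ (Nat.factorial_le_pow r)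
      _ = (W * r) ^ r := by rw [← mul_pow, mul_comm]
      _ ≤ (n + 1 - r) ^ r := Nat.pow_le_pow_left h2 r
      _ ≤ _ := h1
  exact Nat.le_of_mul_le_mul_left h3 (Nat.factorial_pos r)

end Vale.Agent.P042.R2.H600
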