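import Vale.Agent.P042.R2.H600.PrimesSW

/-!
P042: numbers `m` with many divisors of the form `p - 1` (Prachar's pigeonhole argument, with the
Siegel-Walfisz theorem).
-/

set_option autoImplicit false

namespace Vale.Agent.P042.R2.H600

open Finset Real

/-- primes `q ≤ y` with `q ^ 2 > y` -/
def Qs (y : ℕ) : Finset ℕ := (Icc 1 y).filter (fun q => q.Prime ∧ y < q ^ 2)

theorem card_Qs_ge (y : ℕ) : ((PS y 1).card : ℝ) - √y ≤ ((Qs y).card : ℝ) := by
  have h1 : (PS y 1) ⊆ Qs y ∪ Icc 1 (Nat.sqrt y) := by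
    intro q hq
    rw [PS, Nat.floor_natCast] at hq
    obtain ⟨h1, h2, -⟩ := mem_filter.1 hq
    by_cases h : y < q ^ 2
    · exact mem_union_left _ (mem_filter.2 ⟨h1, h2, h⟩)
    · refine mem_union_right _ (mem_Icc.2 ⟨(mem_Icc.1 h1).1, ?_⟩)
      rw [Nat.le_sqrt']
      omega
  have h2 := (card_le_card h1).trans (card_union_le _ _)
  rw [Nat.card_Icc, Nat.add_sub_cancel] at h2
  have h3 : ((PS y 1).card : ℝ) ≤ (Qs y).card + (Nat.sqrt y : ℕ) := by exact_mod_cast h2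
  have h4 : ((Nat.sqrt y : ℕ) : ℝ) ≤ √y := Real.nat_sqrt_le_real_sqrt
  linarith

theorem ev_Qs (hsw : SW) : ∀ᶠ y : ℕ in Filter.atTop, y ^ 3 ≤ (Qs y).card ^ 4 := by
  obtain ⟨x0, hx0⟩ := primes_sw hsw 1 one_pos
  have hlo : Filter.Tendsto (fun x : ℝ => log x / x ^ (1 / 4 : ℝ)) Filter.atTop (nhds 0) :=
    (isLittleO_log_rpow_atTop (r := (1 / 4 : ℝ)) (by norm_num)).tendsto_div_nhds_zero
  have hev : ∀ᶠ x : ℝ in Filter.atTop, log x / x ^ (1 / 4 : ℝ) < 1 / 8 ∧ x0 ≤ x ∧ 1 ≤ log x ∧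
      1 ≤ x := by
    filter_upwards [hlo.eventually (gt_mem_nhds (show (0 : ℝ) < 1 / 8 by norm_num)),
      Filter.eventually_ge_atTop x0, tendsto_log_atTop.eventually_ge_atTop 1,
      Filter.eventually_ge_atTop 1] with x h1 h2 h3 h4
    exact ⟨h1, h2, h3, h4⟩
  filter_upwards [tendsto_natCast_atTop_atTop.eventually hev] with y hy
  obtain ⟨e1, e2, e3, e4⟩ := hy
  have hy0 : (0 : ℝ) < y := by linarith
  have h1 := hx0 y e2 1 le_rfl (by rw [rpow_one]; exact_mod_cast e3)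
  rw [Nat.cast_one, mul_one] at h1
  have h2 := card_Qs_ge y
  rw [div_lt_iff₀ (by positivity)] at e1
  set u : ℝ := (y : ℝ) ^ (1 / 4 : ℝ) with hu
  have hu1 : 1 ≤ u := one_le_rpow e4 (by norm_num)
  have hu4 : u ^ 4 = y := by
    rw [hu, ← rpow_natCast, ← rpow_mul hy0.le]
    norm_num
  have hs : √(y : ℝ) = u ^ 2 := by
    rw [sqrt_eq_iff_mul_self_eq hy0.le (by positivity), ← hu4]
    ring
  have h3 : 2 * u ^ 3 ≤ (y : ℝ) / (4 * log y) := by
    rw [le_div_iff₀ (by positivity), ← hu4]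
    have : u ^ 3 * (log (u ^ 4)) ≤ u ^ 3 * (1 / 8 * u) := by
      rw [hu4]
      exact mul_le_mul_of_nonneg_left e1.le (by positivity)
    nlinarith
  have h4 : u ^ 2 ≤ u ^ 3 := pow_le_pow_right₀ hu1 (by norm_num)
  have h5 : u ^ 3 ≤ ((Qs y).card : ℝ) := by
    rw [hs] at h2
    linarith
  have h6 : ((y : ℝ)) ^ 3 ≤ ((Qs y).card : ℝ) ^ 4 := by
    calc (y : ℝ) ^ 3 = (u ^ 3) ^ 4 := by rw [← hu4]; ring
      _ ≤ _ := pow_le_pow_left₀ (by positivity) h5 4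
  exact_mod_cast h6

/-- products of `r` different primes of `Qs y` -/
def DD (y r : ℕ) : Finset ℕ := (powersetCard r (Qs y)).image (fun F => ∏ q ∈ F, q)

theorem card_DD (y r : ℕ) : (DD y r).card = (Qs y).card.choose r := by
  classical
  rw [DD, card_image_of_injOn, card_powersetCard]
  intro F hF G hG h
  have hF1 := (mem_powersetCard.1 (mem_coe.1 hF)).1
  have hG1 := (mem_powersetCard.1 (mem_coe.1 hG)).1
  have h1 := Nat.primeFactors_prod (s := F) fun q hq => (mem_filter.1 (hF1 hq)).2.1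
  have h2 := Nat.primeFactors_prod (s := G) fun q hq => (mem_filter.1 (hG1 hq)).2.1
  rw [← h1, ← h2]
  exact congrArg _ h

theorem DD_le {y r d : ℕ} (hd : d ∈ DD y r) : d ≤ y ^ r := by
  obtain ⟨F, hF, rfl⟩ := mem_image.1 hd
  obtain ⟨hF1, hF2⟩ := mem_powersetCard.1 hF
  rw [← hF2]
  exact prod_le_pow_card _ _ _ fun q hq => (mem_Icc.1 (mem_filter.1 (hF1 hq)).1).2

theorem DD_ge {y r d : ℕ} (hd : d ∈ DD y r) : y ^ r ≤ d ^ 2 := by
  obtain ⟨F, hF, rfl⟩ := mem_image.1 hd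
  obtain ⟨hF1, hF2⟩ := mem_powersetCard.1 hF
  rw [← hF2, ← prod_pow]
  exact pow_card_le_prod _ _ _ fun q hq => (mem_filter.1 (hF1 hq)).2.2.le

theorem DD_dvd {y r d : ℕ} (hd : d ∈ DD y r) : d ∣ ∏ q ∈ Qs y, q := by
  obtain ⟨F, hF, rfl⟩ := mem_image.1 hd
  exact prod_dvd_prod_of_subset _ _ _ (mem_powersetCard.1 hF).1

theorem DD_card_ge (y t : ℕ) (hQ : y ^ 3 ≤ (Qs y).card ^ 4) (hy : (8 * t) ^ 4 ≤ y)
    (hy2 : 4 * 2 ^ (4 * t) * (4 * t).factorial < y) (ht : 1 ≤ t) :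
    4 * y ^ (3 * t - 1) < (DD y (4 * t)).card := by
  set n := (Qs y).card with hn
  have h1 : 8 * t ≤ n := by
    by_contra h
    push Not at h
    have h2 : n ^ 4 < (8 * t) ^ 4 := Nat.pow_lt_pow_left h (by norm_num)
    have h3 : y ≤ y ^ 3 := Nat.le_self_pow (by norm_num) y
    omega
  have h2 : (n + 1 - 4 * t) ^ (4 * t) ≤ (4 * t).factorial * n.choose (4 * t) := by
    have := Nat.pow_le_choose (α := ℚ) (4 * t) n
    rw [div_le_iff₀' (by positivity)] at this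
    exact_mod_cast this
  have h3 : n ^ (4 * t) ≤ 2 ^ (4 * t) * (n + 1 - 4 * t) ^ (4 * t) := by
    rw [← mul_pow]
    exact Nat.pow_le_pow_left (by omega) _
  have h4 : y ^ (3 * t) ≤ n ^ (4 * t) := by
    rw [pow_mul, pow_mul]
    exact Nat.pow_le_pow_left hQ _
  rw [card_DD, ← hn]
  have h5 : y ^ (3 * t) = y * y ^ (3 * t - 1) := by
    rw [← pow_succ']
    congr 1
    omega
  have hy0 : 0 < y := by omega
  have h6 : 4 * 2 ^ (4 * t) * (4 * t).factorial * y ^ (3 * t - 1) < y ^ (3 * t) := by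
    rw [h5]
    exact Nat.mul_lt_mul_of_pos_right hy2 (by positivity)
  have h7 : (2 ^ (4 * t) * (4 * t).factorial) * (4 * y ^ (3 * t - 1)) <
      (2 ^ (4 * t) * (4 * t).factorial) * n.choose (4 * t) := by
    calc (2 ^ (4 * t) * (4 * t).factorial) * (4 * y ^ (3 * t - 1))
        = 4 * 2 ^ (4 * t) * (4 * t).factorial * y ^ (3 * t - 1) := by ring
      _ < y ^ (3 * t) := h6
      _ ≤ n ^ (4 * t) := h4
      _ ≤ 2 ^ (4 * t) * (n + 1 - 4 * t) ^ (4 * t) := h3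
      _ ≤ 2 ^ (4 * t) * ((4 * t).factorial * n.choose (4 * t)) := Nat.mul_le_mul_left _ h2
      _ = _ := by ring
  exact lt_of_mul_lt_mul_left h7 (Nat.zero_le _)

/-- the number of primes `p ≤ x`, `p ≡ 1 mod d`, as a number of cofactors -/
theorem PS_le (x : ℝ) (hx : 0 ≤ x) (d Y : ℕ) (hY : 0 < Y) (hd : Y ≤ d) :
    (PS x d).card ≤ ∑ k ∈ Icc 1 ⌊x / Y⌋₊, if (d * k + 1).Prime then 1 else 0 := by
  classical
  rw [← card_filter]
  have hd0 : 0 < d := by omega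
  have hYr : (0 : ℝ) < Y := by exact_mod_cast hY
  have hsub : PS x d ⊆ ((Icc 1 ⌊x / Y⌋₊).filter (fun k => (d * k + 1).Prime)).image
      (fun k => d * k + 1) := by
    intro p hp
    obtain ⟨h1, h2, h3⟩ := mem_filter.1 hp
    obtain ⟨k, hk⟩ := h3
    have hp2 := h2.two_le
    have hpe : p = d * k + 1 := by omega
    refine mem_image.2 ⟨k, mem_filter.2 ⟨mem_Icc.2 ⟨?_, ?_⟩, ?_⟩, hpe.symm⟩
    · rcases Nat.eq_zero_or_pos k with rfl | h
      · omega
      · exact h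
    · refine Nat.le_floor ?_
      rw [le_div_iff₀ hYr]
      have h4 : (p : ℝ) ≤ x := (Nat.le_floor_iff hx).1 (mem_Icc.1 h1).2
      have h5 : k * Y ≤ p := by
        have : Y * k ≤ d * k := Nat.mul_le_mul_right _ hd
        nlinarith
      have h6 : ((k : ℝ)) * Y ≤ p := by exact_mod_cast h5
      linarith
    · rw [← hpe]
      exact h2
  exact (card_le_card hsub).trans card_image_le

theorem pigeon (x : ℝ) (hx : 0 < x) (D : Finset ℕ) (y t : ℕ) (hy : 0 < y) (ht : 2 ≤ t)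
    (hge : ∀ d ∈ D, y ^ (2 * t) ≤ d)
    (hPS : ∀ d ∈ D, x / (4 * y ^ (4 * t) * y) ≤ ((PS x d).card : ℝ))
    (hD : 4 * y ^ (3 * t - 1) < D.card) :
    ∃ k : ℕ, 1 ≤ k ∧ (k : ℝ) ≤ x ∧
      y ^ (t - 2) ≤ (D.filter (fun d => (d * k + 1).Prime)).card := by
  by_contra hcon
  push Not at hcon
  have hyr : (0 : ℝ) < y := by exact_mod_cast hy
  have hyr1 : (1 : ℝ) ≤ y := by exact_mod_cast hy
  set K : ℕ := ⌊x / (y ^ (2 * t) : ℕ)⌋₊ with hK
  have hKx : (K : ℝ) ≤ x / y ^ (2 * t) := by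
    have := Nat.floor_le (show 0 ≤ x / ((y ^ (2 * t) : ℕ) : ℝ) by positivity)
    rw [← hK] at this
    push_cast at this
    exact this
  have h1 : (D.card : ℝ) * (x / (4 * y ^ (4 * t) * y)) ≤ ∑ d ∈ D, ((PS x d).card : ℝ) := by
    rw [← nsmul_eq_mul]
    exact card_nsmul_le_sum _ _ _ hPS
  have h2 : ∑ d ∈ D, (PS x d).card ≤ ∑ k ∈ Icc 1 K,
      (D.filter (fun d => (d * k + 1).Prime)).card := by
    calc ∑ d ∈ D, (PS x d).card
        ≤ ∑ d ∈ D, ∑ k ∈ Icc 1 K, (if (d * k + 1).Prime then 1 else 0) :=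
          sum_le_sum fun d hd => PS_le x hx.le d (y ^ (2 * t)) (by positivity) (hge d hd)
      _ = ∑ k ∈ Icc 1 K, ∑ d ∈ D, (if (d * k + 1).Prime then 1 else 0) := sum_comm
      _ = _ := by
          refine sum_congr rfl fun k _ => ?_
          rw [card_filter]
  have h3 : ∑ k ∈ Icc 1 K, (D.filter (fun d => (d * k + 1).Prime)).card ≤ K * y ^ (t - 2) := by
    calc ∑ k ∈ Icc 1 K, (D.filter (fun d => (d * k + 1).Prime)).card
        ≤ ∑ k ∈ Icc 1 K, y ^ (t - 2) := by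
          refine sum_le_sum fun k hk => ?_
          obtain ⟨hk1, hk2⟩ := mem_Icc.1 hk
          refine (hcon k hk1 ?_).le
          have h4 : (k : ℝ) ≤ K := by exact_mod_cast hk2
          have h5 : x / y ^ (2 * t) ≤ x := div_le_self hx.le (one_le_pow₀ hyr1)
          linarith
      _ = K * y ^ (t - 2) := by simp
  have h4 : (D.card : ℝ) * (x / (4 * y ^ (4 * t) * y)) ≤ x / y ^ (2 * t) * y ^ (t - 2) := by
    refine h1.trans ?_
    have h5 : (∑ d ∈ D, ((PS x d).card : ℝ)) ≤ (K : ℝ) * y ^ (t - 2) := by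
      exact_mod_cast h2.trans h3
    refine h5.trans ?_
    exact mul_le_mul_of_nonneg_right hKx (by positivity)
  have h5 : (D.card : ℝ) ≤ 4 * y ^ (3 * t - 1) := by
    rw [mul_div_assoc', div_mul_eq_mul_div, div_le_div_iff₀ (by positivity) (by positivity)] at h4
    have h6 : (x * (y : ℝ) ^ (t - 2)) * (4 * y ^ (4 * t) * y) =
        (4 * y ^ (3 * t - 1)) * (x * y ^ (2 * t)) := by
      have h7 : (y : ℝ) ^ (t - 2) * (y ^ (4 * t) * y) = y ^ (3 * t - 1) * y ^ (2 * t) := by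
        rw [← pow_succ, ← pow_add, ← pow_add]
        congr 1
        omega
      calc (x * (y : ℝ) ^ (t - 2)) * (4 * y ^ (4 * t) * y)
          = 4 * x * ((y : ℝ) ^ (t - 2) * (y ^ (4 * t) * y)) := by ring
        _ = 4 * x * (y ^ (3 * t - 1) * y ^ (2 * t)) := by rw [h7]
        _ = _ := by ring
    rw [h6] at h4
    have h8 : (D.card : ℝ) * (x * y ^ (2 * t)) ≤ (4 * y ^ (3 * t - 1)) * (x * y ^ (2 * t)) := by
      linarith
    exact le_of_mul_le_mul_right h8 (by positivity)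
  have h6 : D.card ≤ 4 * y ^ (3 * t - 1) := by exact_mod_cast h5
  omega

end Vale.Agent.P042.R2.H600
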