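import Mathlib

/-!
P042: primes `p ≡ 1 mod d` up to `x`, `d ≤ (log x) ^ C`, from the Siegel-Walfisz theorem.
-/

set_option autoImplicit false

namespace Vale.Agent.P042.R2.H600

open Finset Real

/-- the Siegel-Walfisz theorem, as proved in `Vale.Agent.P013.J.sw` -/
def SW : Prop := ∀ C : ℝ, 0 < C → ∃ x₀ : ℝ, ∀ x : ℝ, x₀ ≤ x → ∀ q a : ℕ, 1 ≤ q →
  (q : ℝ) ≤ (log x) ^ C → Nat.Coprime a q →
    |(∑ n ∈ (Icc 1 ⌊x⌋₊).filter (fun n => n ≡ a [MOD q]), ArithmeticFunction.vonMangoldt n)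
      - x / (Nat.totient q : ℝ)| ≤ x / (log x) ^ C

/-- primes `p ≤ x` with `d ∣ p - 1` -/
noncomputable def PS (x : ℝ) (d : ℕ) : Finset ℕ :=
  (Icc 1 ⌊x⌋₊).filter (fun p => p.Prime ∧ d ∣ p - 1)

theorem vm_le (d k : ℕ) (hk : 1 ≤ k) :
    (if k ≡ 1 [MOD d] then ArithmeticFunction.vonMangoldt k else 0) ≤
      (if k.Prime ∧ d ∣ k - 1 then Real.log k else 0)
        + (ArithmeticFunction.vonMangoldt k - if k.Prime then Real.log k else 0) := by
  have h0 : 0 ≤ ArithmeticFunction.vonMangoldt k := ArithmeticFunction.vonMangoldt_nonneg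
  have hd : k ≡ 1 [MOD d] ↔ d ∣ k - 1 := by
    constructor
    · intro h
      exact (Nat.modEq_iff_dvd' hk).1 h.symm
    · intro h
      exact ((Nat.modEq_iff_dvd' hk).2 h).symm
  by_cases hp : k.Prime
  · have hL : ArithmeticFunction.vonMangoldt k = Real.log k :=
      ArithmeticFunction.vonMangoldt_apply_prime hp
    by_cases h : d ∣ k - 1
    · rw [if_pos (hd.2 h), if_pos ⟨hp, h⟩, if_pos hp, hL]
      linarith
    · rw [if_neg (fun h' => h (hd.1 h')), if_neg (fun h' => h h'.2), if_pos hp, hL]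
      linarith
  · rw [if_neg (fun h' : k.Prime ∧ d ∣ k - 1 => hp h'.1), if_neg hp]
    split_ifs <;> linarith

theorem count_ge (x : ℝ) (d : ℕ) (hx : 2 ≤ x) :
    (∑ n ∈ (Icc 1 ⌊x⌋₊).filter (fun n => n ≡ 1 [MOD d]), ArithmeticFunction.vonMangoldt n) ≤
      ((PS x d).card : ℝ) * log x + 2 * √x * log x := by
  have hfx : 0 < ⌊x⌋₊ := Nat.floor_pos.2 (by linarith)
  have g1 : Chebyshev.psi x - Chebyshev.theta x ≤ 2 * √x * log x :=
    Chebyshev.psi_sub_theta_le (by linarith)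
  have g2 : (∑ n ∈ (Icc 1 ⌊x⌋₊).filter (fun n => n ≡ 1 [MOD d]),
      ArithmeticFunction.vonMangoldt n) ≤
      (∑ k ∈ PS x d, Real.log k) + (Chebyshev.psi x - Chebyshev.theta x) := by
    rw [sum_filter]
    calc (∑ k ∈ Icc 1 ⌊x⌋₊, if k ≡ 1 [MOD d] then ArithmeticFunction.vonMangoldt k else 0)
        ≤ ∑ k ∈ Icc 1 ⌊x⌋₊, ((if k.Prime ∧ d ∣ k - 1 then Real.log k else 0)
          + (ArithmeticFunction.vonMangoldt k - if k.Prime then Real.log k else 0)) :=
          sum_le_sum fun k hk => vm_le d k (mem_Icc.1 hk).1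
      _ = _ := by
          rw [sum_add_distrib, sum_sub_distrib, ← sum_filter, ← sum_filter]
          congr 1
  have g3 : (∑ k ∈ PS x d, Real.log k) ≤ ((PS x d).card : ℝ) * log x := by
    rw [← nsmul_eq_mul]
    refine sum_le_card_nsmul _ _ _ fun k hk => ?_
    have hk1 := mem_Icc.1 (mem_filter.1 hk).1
    refine Real.log_le_log (by exact_mod_cast hk1.1) ?_
    exact (Nat.le_floor_iff (by linarith)).1 hk1.2
  linarith

theorem primes_sw (hsw : SW) (C : ℝ) (hC : 0 < C) : ∃ x0 : ℝ, ∀ x : ℝ, x0 ≤ x → ∀ d : ℕ, 1 ≤ d →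
    (d : ℝ) ≤ (log x) ^ C → x / (4 * d * log x) ≤ ((PS x d).card : ℝ) := by
  obtain ⟨x1, h1⟩ := hsw (C + 1) (by linarith)
  have hlo : Filter.Tendsto (fun x : ℝ => (log x) ^ (C + 1) / x ^ (1 / 2 : ℝ)) Filter.atTop
      (nhds 0) := by
    have := (isLittleO_log_rpow_rpow_atTop (s := (1 / 2 : ℝ)) (C + 1) (by norm_num))
    exact this.tendsto_div_nhds_zero
  have hlt : Filter.Tendsto (fun x : ℝ => log x) Filter.atTop Filter.atTop := tendsto_log_atTop
  obtain ⟨x2, h2⟩ := Filter.eventually_atTop.1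
    ((hlo.eventually (gt_mem_nhds (show (0 : ℝ) < 1 / 8 by norm_num))).and
      ((hlt.eventually_ge_atTop 4).and (Filter.eventually_ge_atTop 2)))
  refine ⟨max x1 x2, fun x hx d hd hdC => ?_⟩
  obtain ⟨e1, e2, e3⟩ := h2 x ((le_max_right _ _).trans hx)
  have hL : 0 < log x := by linarith
  have hx0 : 0 < x := by linarith
  have hd0 : (1 : ℝ) ≤ d := by exact_mod_cast hd
  have hCC : (log x) ^ (C + 1) = (log x) ^ C * log x := by
    rw [rpow_add hL, rpow_one]
  have hdC' : (d : ℝ) * log x ≤ (log x) ^ (C + 1) := by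
    rw [hCC]
    exact mul_le_mul_of_nonneg_right hdC hL.le
  have hdC1 : (d : ℝ) ≤ (log x) ^ (C + 1) := by
    refine le_trans ?_ hdC'
    nlinarith
  have h3 := h1 x ((le_max_left _ _).trans hx) d 1 hd hdC1 (Nat.coprime_one_left d)
  have h4 := (abs_le.1 h3).1
  have hfi : (0 : ℝ) < (Nat.totient d : ℝ) := by exact_mod_cast Nat.totient_pos.2 hd
  have hfi2 : (Nat.totient d : ℝ) ≤ d := by exact_mod_cast Nat.totient_le d
  have h5 : x / d ≤ x / (Nat.totient d : ℝ) := by gcongr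
  have h6 : x / (log x) ^ (C + 1) ≤ x / (4 * d) := by
    refine div_le_div_of_nonneg_left hx0.le (by positivity) ?_
    refine le_trans ?_ hdC'
    nlinarith
  have h7 := count_ge x d e3
  -- the prime powers
  have h8 : 2 * √x * log x ≤ x / (4 * d) := by
    rw [le_div_iff₀ (by positivity)]
    rw [← sqrt_eq_rpow, div_lt_iff₀ (sqrt_pos.2 hx0)] at e1
    have h9 : x = √x * √x := (mul_self_sqrt hx0.le).symm
    have hs : 0 < √x := sqrt_pos.2 hx0
    calc 2 * √x * log x * (4 * d) = 8 * √x * (d * log x) := by ring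
      _ ≤ 8 * √x * (1 / 8 * √x) :=
          mul_le_mul_of_nonneg_left (hdC'.trans e1.le) (by positivity)
      _ = √x * √x := by ring
      _ = x := h9.symm
  have h10 : x / (2 * d) ≤ ((PS x d).card : ℝ) * log x := by
    have : x / (2 * d) = x / d - x / (4 * d) - x / (4 * d) := by
      field_simp
      ring
    rw [this]
    linarith
  rw [div_le_iff₀ (by positivity)]
  rw [div_le_iff₀ (by positivity)] at h10
  nlinarith [h10]

end Vale.Agent.P042.R2.H600
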