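import Vale.Agent.P042.R2.H600.Count

/-!
P042: the weighted lower bound for primes `p ≡ 1 mod d`, summed over a sparse set of moduli.
-/

set_option autoImplicit false

namespace Vale.Agent.P042.R2.H600

open Finset ArithmeticFunction Vale.Agent.P013.J Vale.Agent.P013.J.BV

open Vale.Agent.P005.BV (hi mu ze)

theorem bracket (w x p X Dc g Q U bad : ℝ) (hp0 : 0 ≤ p) (hp : p ≤ 2 * w)
    (hX0 : 0 ≤ X) (hX : X ≤ x) (hg : 0 ≤ g) (hU : 0 < U) (hQ : 1 ≤ Q)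
    (hbad : 0 ≤ bad) (ha : 128 * w ^ 6 * g ≤ 1 / 256)
    (hb : 1280 * w ^ 7 * Q ^ 4 / U ≤ 1 / 256) (hc : 2048 * w ^ 8 * bad ≤ Dc ^ 2 / 256) :
    p ^ 4 * ((Dc ^ 2 * (g + Q ^ 2 * p / U) + 4 * p ^ 2 * bad) * (2 * X ^ 2 * p ^ 2) +
      Dc ^ 2 * (8 * Q ^ 4 * X ^ 2 * p ^ 3 / U)) ≤ (Dc * x / 8) ^ 2 := by
  have hD : 0 ≤ Dc ^ 2 := by positivity
  have h6 : p ^ 6 ≤ 64 * w ^ 6 := by
    calc p ^ 6 ≤ (2 * w) ^ 6 := pow_le_pow_left₀ hp0 hp 6
      _ = _ := by ring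
  have h7 : p ^ 7 ≤ 128 * w ^ 7 := by
    calc p ^ 7 ≤ (2 * w) ^ 7 := pow_le_pow_left₀ hp0 hp 7
      _ = _ := by ring
  have h8 : p ^ 8 ≤ 256 * w ^ 8 := by
    calc p ^ 8 ≤ (2 * w) ^ 8 := pow_le_pow_left₀ hp0 hp 8
      _ = _ := by ring
  have hQ2 : Q ^ 2 ≤ Q ^ 4 := pow_le_pow_right₀ hQ (by norm_num)
  have hX2 : X ^ 2 ≤ x ^ 2 := pow_le_pow_left₀ hX0 hX 2
  have e1 : p ^ 4 * ((Dc ^ 2 * (g + Q ^ 2 * p / U) + 4 * p ^ 2 * bad) * (2 * X ^ 2 * p ^ 2) +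
      Dc ^ 2 * (8 * Q ^ 4 * X ^ 2 * p ^ 3 / U)) =
      X ^ 2 * (2 * p ^ 6 * g * Dc ^ 2 + 2 * p ^ 7 * (Q ^ 2 / U) * Dc ^ 2 + 8 * p ^ 8 * bad +
        8 * p ^ 7 * (Q ^ 4 / U) * Dc ^ 2) := by
    field_simp
    ring
  have t1 : 2 * p ^ 6 * g * Dc ^ 2 ≤ 1 / 256 * Dc ^ 2 := by
    refine mul_le_mul_of_nonneg_right ?_ hD
    calc 2 * p ^ 6 * g ≤ 2 * (64 * w ^ 6) * g := by gcongr
      _ = 128 * w ^ 6 * g := by ring
      _ ≤ _ := ha
  have t24 : 2 * p ^ 7 * (Q ^ 2 / U) * Dc ^ 2 + 8 * p ^ 7 * (Q ^ 4 / U) * Dc ^ 2 ≤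
      1 / 256 * Dc ^ 2 := by
    rw [← add_mul]
    refine mul_le_mul_of_nonneg_right ?_ hD
    calc 2 * p ^ 7 * (Q ^ 2 / U) + 8 * p ^ 7 * (Q ^ 4 / U)
        ≤ 2 * p ^ 7 * (Q ^ 4 / U) + 8 * p ^ 7 * (Q ^ 4 / U) := by gcongr
      _ = 10 * p ^ 7 * (Q ^ 4 / U) := by ring
      _ ≤ 10 * (128 * w ^ 7) * (Q ^ 4 / U) := by gcongr
      _ = 1280 * w ^ 7 * Q ^ 4 / U := by ring
      _ ≤ _ := hb
  have t3 : 8 * p ^ 8 * bad ≤ 1 / 256 * Dc ^ 2 := by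
    calc 8 * p ^ 8 * bad ≤ 8 * (256 * w ^ 8) * bad := by gcongr
      _ = 2048 * w ^ 8 * bad := by ring
      _ ≤ Dc ^ 2 / 256 := hc
      _ = _ := by ring
  rw [e1]
  calc X ^ 2 * (2 * p ^ 6 * g * Dc ^ 2 + 2 * p ^ 7 * (Q ^ 2 / U) * Dc ^ 2 + 8 * p ^ 8 * bad +
        8 * p ^ 7 * (Q ^ 4 / U) * Dc ^ 2)
      ≤ X ^ 2 * (3 / 256 * Dc ^ 2) := by
        refine mul_le_mul_of_nonneg_left ?_ (by positivity)
        linarith
    _ ≤ x ^ 2 * (3 / 256 * Dc ^ 2) := mul_le_mul_of_nonneg_right hX2 (by positivity)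
    _ ≤ (Dc * x / 8) ^ 2 := by
        have : (Dc * x / 8) ^ 2 = x ^ 2 * (1 / 64 * Dc ^ 2) := by ring
        rw [this]
        refine mul_le_mul_of_nonneg_left ?_ (by positivity)
        linarith

theorem weighted_lower (w x : ℝ) (hw : 1 ≤ w) (hx : x = Real.exp w) (X U Q G : ℕ)
    (hXdef : X = ⌊x⌋₊) (hU : 1 ≤ U) (hG : 1 ≤ G) (hQ : 1 ≤ Q) (hQU : Q ≤ U) (hUX : U ≤ X)
    (D : Finset ℕ) (hD : ∀ q ∈ D, 1 ≤ q ∧ q ≤ Q) (δ : ℝ) (hδ : 0 ≤ δ)
    (hSW : ∀ g, 1 ≤ g → g ≤ G → ∀ c, Nat.Coprime c g → ∀ N ≤ X,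
      |∑ n ∈ Icc 1 N, hi vonMangoldt U n * K g c n| ≤ δ * N)
    (hpsi : |∑ n ∈ Icc 1 X, vonMangoldt n - x| ≤ x / 16)
    (ha : 128 * w ^ 6 * (G * δ) ≤ 1 / 256)
    (hb : 1280 * w ^ 7 * (Q : ℝ) ^ 4 / U ≤ 1 / 256)
    (hc : 2048 * w ^ 8 * (bad D G : ℝ) ≤ (D.card : ℝ) ^ 2 / 256)
    (hN1 : 5 * (Q : ℝ) ^ 2 * U ^ 2 * (2 * w) ≤ x / 64)
    (hN3 : (Q : ℝ) * w ≤ x / 16) (hN4 : (Q : ℝ) * (2 * √x * w) ≤ x / 4) :
    (D.card : ℝ) * x / (4 * w) ≤ ∑ d ∈ D, (d : ℝ) * (PS x d).card := by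
  have hx0 : 0 < x := by rw [hx]; exact Real.exp_pos _
  have hx2 : 2 ≤ x := by
    have := Real.add_one_le_exp w
    rw [hx]; linarith
  have hlx : Real.log x = w := by rw [hx, Real.log_exp]
  have hX1 : 1 ≤ X := hU.trans hUX
  have hXr : (1 : ℝ) ≤ X := by exact_mod_cast hX1
  have hXx : (X : ℝ) ≤ x := by rw [hXdef]; exact Nat.floor_le hx0.le
  have hL0 := log_nat_nonneg X
  have hlogX : Real.log X ≤ w := by
    rw [← hlx]
    exact Real.log_le_log (by linarith) hXx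
  have hP : 1 + Real.log X ≤ 2 * w := by linarith
  have hUr : (1 : ℝ) ≤ U := by exact_mod_cast hU
  have hQr : (1 : ℝ) ≤ Q := by exact_mod_cast hQ
  -- type II
  have hII := typeII_sparse X U U Q G hX1 hU hU hG hQ hQU hUX D hD δ hδ hSW
  have hbr := bracket w x (1 + Real.log X) X D.card (G * δ) Q U (bad D G)
    (by linarith) hP (by linarith) hXx (by positivity) (by linarith) hQr (by positivity) ha hb hc
  have hS : (∑ q ∈ D, (q : ℝ) * |∑ n ∈ Icc 1 X, ∑ m ∈ Icc 1 (X / n),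
      hi vonMangoldt U n * (hi mu U * ze) m * K q (h1 q) (n * m)|) ≤ (D.card : ℝ) * x / 8 :=
    le_of_sq_le_sq (hII.trans hbr) (by positivity)
  -- the kernel sums
  have hker : ∑ q ∈ D, (q : ℝ) * |∑ n ∈ Icc 1 X, vonMangoldt n * K q (h1 q) n| ≤
      (D.card : ℝ) * (x / 64) + (D.card : ℝ) * x / 8 := by
    calc ∑ q ∈ D, (q : ℝ) * |∑ n ∈ Icc 1 X, vonMangoldt n * K q (h1 q) n|
        ≤ ∑ q ∈ D, (x / 64 + (q : ℝ) * |∑ n ∈ Icc 1 X, ∑ m ∈ Icc 1 (X / n),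
          hi vonMangoldt U n * (hi mu U * ze) m * K q (h1 q) (n * m)|) := by
          refine sum_le_sum fun q hq => ?_
          have hv := vaughan_reduce X U U hX1 hU hU (hD q hq).1 (h1_cop q (hD q hq).1)
          have hqQ : (q : ℝ) ≤ Q := by exact_mod_cast (hD q hq).2
          have h2 : (q : ℝ) * (5 * q * U * U * (1 + Real.log X)) ≤ x / 64 := by
            calc (q : ℝ) * (5 * q * U * U * (1 + Real.log X))
                = 5 * (q : ℝ) ^ 2 * U ^ 2 * (1 + Real.log X) := by ring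
              _ ≤ 5 * (Q : ℝ) ^ 2 * U ^ 2 * (2 * w) := by gcongr
              _ ≤ _ := hN1
          calc (q : ℝ) * |∑ n ∈ Icc 1 X, vonMangoldt n * K q (h1 q) n|
              ≤ (q : ℝ) * (5 * q * U * U * (1 + Real.log X) +
                |∑ n ∈ Icc 1 X, ∑ m ∈ Icc 1 (X / n),
                  hi vonMangoldt U n * (hi mu U * ze) m * K q (h1 q) (n * m)|) :=
                mul_le_mul_of_nonneg_left hv (by positivity)
            _ ≤ _ := by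
                rw [mul_add]
                linarith
      _ = (D.card : ℝ) * (x / 64) + ∑ q ∈ D, (q : ℝ) * |∑ n ∈ Icc 1 X, ∑ m ∈ Icc 1 (X / n),
          hi vonMangoldt U n * (hi mu U * ze) m * K q (h1 q) (n * m)| := by
          rw [sum_add_distrib, sum_const, nsmul_eq_mul]
      _ ≤ _ := by linarith
  -- pointwise
  have hpt : ∀ q ∈ D, 7 / 8 * x - (q : ℝ) * |∑ n ∈ Icc 1 X, vonMangoldt n * K q (h1 q) n| ≤
      (q : ℝ) * (PS x q).card * w + x / 4 := by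
    intro q hq
    have hq1 := (hD q hq).1
    have hqr : (1 : ℝ) ≤ q := by exact_mod_cast hq1
    have hqQ : (q : ℝ) ≤ Q := by exact_mod_cast (hD q hq).2
    have hφ : (0 : ℝ) < Nat.totient q := by exact_mod_cast Nat.totient_pos.2 hq1
    have hφq : (Nat.totient q : ℝ) ≤ q := by exact_mod_cast Nat.totient_le q
    have hk := kernel_sum_eq x q (h1 q)
    rw [← hXdef] at hk
    have hnc := sum_not_coprime_le (q := q) (N := X) hq1 hX1
    set nc := ∑ n ∈ (Icc 1 X).filter (fun n => ¬ Nat.Coprime n q), vonMangoldt n with hncdef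
    set ψ := ∑ n ∈ Icc 1 X, vonMangoldt n with hψ
    set KK := ∑ n ∈ Icc 1 X, vonMangoldt n * K q (h1 q) n with hKK
    have hnc2 : nc ≤ x / 16 := by
      refine hnc.trans (le_trans ?_ hN3)
      calc (q : ℝ) * Real.log X ≤ Q * w := by gcongr
        _ = Q * w := rfl
    have hψ1 : 15 / 16 * x ≤ ψ := by
      have := (abs_le.1 hpsi).1
      linarith
    have hpsiAP : psiAP x q 1 = KK + 1 / (Nat.totient q : ℝ) * (ψ - nc) := by
      have : psiAP x q (h1 q) = KK + 1 / (Nat.totient q : ℝ) * (ψ - nc) := by linarith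
      exact this
    have h3 : (ψ - nc) ≤ (q : ℝ) * (1 / (Nat.totient q : ℝ) * (ψ - nc)) := by
      have h4 : 1 ≤ (q : ℝ) / Nat.totient q := by
        rw [le_div_iff₀ hφ]; linarith
      have h5 : 0 ≤ ψ - nc := by linarith
      calc (ψ - nc) = 1 * (ψ - nc) := (one_mul _).symm
        _ ≤ (q : ℝ) / Nat.totient q * (ψ - nc) := mul_le_mul_of_nonneg_right h4 h5
        _ = _ := by ring
    have h6 : -((q : ℝ) * |KK|) ≤ q * KK := by
      have := neg_abs_le KK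
      have h7 := mul_le_mul_of_nonneg_left this (by linarith : (0 : ℝ) ≤ q)
      linarith
    have h8 : 7 / 8 * x - (q : ℝ) * |KK| ≤ q * psiAP x q 1 := by
      rw [hpsiAP, mul_add]
      linarith
    have h9 := count_ge x q hx2
    rw [hlx] at h9
    have h10 : psiAP x q 1 ≤ ((PS x q).card : ℝ) * w + 2 * √x * w := h9
    have h11 : (q : ℝ) * psiAP x q 1 ≤ q * (((PS x q).card : ℝ) * w + 2 * √x * w) :=
      mul_le_mul_of_nonneg_left h10 (by linarith)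
    have h12 : (q : ℝ) * (2 * √x * w) ≤ x / 4 := by
      refine le_trans ?_ hN4
      gcongr
    have h13 : (q : ℝ) * (((PS x q).card : ℝ) * w + 2 * √x * w) =
        (q : ℝ) * (PS x q).card * w + q * (2 * √x * w) := by ring
    linarith
  have hsum := sum_le_sum hpt
  rw [sum_sub_distrib, sum_add_distrib, sum_const, sum_const, nsmul_eq_mul, nsmul_eq_mul,
    ← sum_mul] at hsum
  rw [div_le_iff₀ (by positivity)]
  have hDx : 0 ≤ (D.card : ℝ) * x := by positivity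
  have hgoal : (D.card : ℝ) * x ≤ 4 * ((∑ d ∈ D, (d : ℝ) * (PS x d).card) * w) := by
    have e1 : (D.card : ℝ) * (7 / 8 * x) = 7 / 8 * ((D.card : ℝ) * x) := by ring
    have e2 : (D.card : ℝ) * (x / 64) = 1 / 64 * ((D.card : ℝ) * x) := by ring
    have e3 : (D.card : ℝ) * (x / 4) = 1 / 4 * ((D.card : ℝ) * x) := by ring
    have e4 : (D.card : ℝ) * x / 8 = 1 / 8 * ((D.card : ℝ) * x) := by ring
    rw [e2, e4] at hker
    rw [e1, e3] at hsum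
    linarith
  linarith

end Vale.Agent.P042.R2.H600
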